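import Vale.Agent.P298.H98.R7d
import Vale.Agent.P298.H863.C11
import Vale.Agent.P298.H412.Defs

/-!
# P298, S1-GEO-R7: the square norm of `η = Y^{d-4} w_S`
-/

open scoped Manifold ContDiff ENNReal Topology Matrix
open MeasureTheory Set Filter
open Vale.Agent.P298 Vale.Agent.P298.H379 Vale.Agent.P272.K Vale.Agent.P272.K.INT
open Vale.Agent.P298.H39 Vale.Agent.P298.H863 Vale.Agent.P298.H412

noncomputable section

namespace Vale.Agent.P298.H98.R7

lemma ini_vec (x : Fin 3 → ℂ) (y : ℂ) : ini (vec x y) = (Fin.cons 1 x : Fin 4 → ℂ) := by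
  funext i
  fin_cases i <;> rfl

lemma lst_vec (x : Fin 3 → ℂ) (y : ℂ) : lst (vec x y) = y := rfl

lemma lst_eq (z : VN (2 + 3)) : lst z = z 4 := rfl

variable {d M m : ℕ} {D Ω : Set ℂ} (F : SFam d D) {H : ℂ × (Fin 4 → ℂ) → ℂ}

/-- the affine part -/
lemma G_cons (t : ℂ) (x : Fin 3 → ℂ) : F.G (t, Fin.cons 1 x) = F.f t x - F.s := by
  simp only [SFam.G, SFam.f, ev, Fin.cons_succ, Fin.cons_zero, one_pow, one_mul, mul_one]

lemma mon_le (α : Mon d (d - 1)) (hd : 5 ≤ d) : (α.1 0 + α.1 1 + α.1 2 : ℕ) < d := by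
  have := α.2.1
  omega

/-- the equation at infinity -/
lemma G_inf (t : ℂ) {z : Fin 4 → ℂ} (hz : z 0 = 0) :
    F.G (t, z) = ∑ i : Fin 3, F.c i * z i.succ ^ d := by
  have hd := F.hd
  have h1 : ∀ α : Mon d (d - 1), F.a t α * (z 0 ^ (d - (α.1 0 + α.1 1 + α.1 2 : ℕ)) *
      ∏ i : Fin 3, z i.succ ^ (α.1 i : ℕ)) = 0 := by
    intro α
    have := mon_le α hd
    rw [hz, zero_pow (by omega), zero_mul, mul_zero]
  simp only [SFam.G]
  rw [Finset.sum_eq_zero fun α _ => h1 α, hz, zero_pow (by omega)]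
  ring

/-- the polynomial in the last variable -/
lemma pt_f (t : ℂ) : PT (F.f t) d (F.c 2) := by
  have hd := F.hd
  refine ⟨fun x => Polynomial.C (F.c 0 * x 0 ^ d + F.c 1 * x 1 ^ d) +
    Polynomial.C (F.c 2) * Polynomial.X ^ d +
    ∑ α : Mon d (d - 1), Polynomial.C (F.a t α * (x 0 ^ (α.1 0 : ℕ) * x 1 ^ (α.1 1 : ℕ))) *
      Polynomial.X ^ (α.1 2 : ℕ), fun x => ⟨fun τ => ?_, ?_, ?_⟩⟩
  · simp only [SFam.f, ev, Polynomial.eval_add, Polynomial.eval_mul, Polynomial.eval_C,
      Polynomial.eval_pow, Polynomial.eval_X, Polynomial.eval_finsetSum, Fin.sum_univ_three,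
      Fin.prod_univ_three]
    have h0 : Function.update x 2 τ 0 = x 0 := Function.update_of_ne (by decide) _ _
    have h1 : Function.update x 2 τ 1 = x 1 := Function.update_of_ne (by decide) _ _
    have h2 : Function.update x 2 τ 2 = τ := Function.update_self _ _ _
    rw [h0, h1, h2]
    congr 1
    refine Finset.sum_congr rfl fun α _ => ?_
    ring
  · refine Polynomial.natDegree_add_le_of_degree_le
      (Polynomial.natDegree_add_le_of_degree_le ?_ ?_) ?_
    · rw [Polynomial.natDegree_C]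
      omega
    · exact Polynomial.natDegree_C_mul_X_pow_le _ _
    · refine Polynomial.natDegree_sum_le_of_forall_le _ _ fun α _ => ?_
      refine (Polynomial.natDegree_C_mul_X_pow_le _ _).trans ?_
      have := mon_le α hd
      omega
  · rw [Polynomial.coeff_add, Polynomial.coeff_add, Polynomial.coeff_C_mul_X_pow, if_pos rfl,
      Polynomial.coeff_C_ne_zero (by omega), Polynomial.finsetSum_coeff,
      Finset.sum_eq_zero, zero_add, add_zero]
    intro α _
    rw [Polynomial.coeff_C_mul_X_pow, if_neg]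
    have := mon_le α hd
    omega

lemma contDiff_f (t : ℂ) : ContDiff ℂ ω (F.f t) := by
  unfold SFam.f ev
  fun_prop

section
variable {G : ℂ × VN (1 + 3) → ℂ}

lemma hasDerivAt_lineG {t : ℂ} {z v : VN (1 + 3)} (hG : AnalyticAt ℂ G (t, z)) :
    HasDerivAt (fun τ : ℂ => G (t, z + τ • v)) (fderiv ℂ G (t, z) (0, v)) 0 := by
  have h1 : HasDerivAt (fun τ : ℂ => ((t, z + τ • v) : ℂ × VN (1 + 3))) (0, v) 0 := by
    have h2 : HasDerivAt (fun τ : ℂ => z + τ • v) v 0 := by
      simpa using ((hasDerivAt_id (0 : ℂ)).smul_const v).const_add z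
    exact (hasDerivAt_const (0 : ℂ) t).prodMk h2
  have h3 : HasFDerivAt G (fderiv ℂ G (t, z)) ((fun τ : ℂ => ((t, z + τ • v) : ℂ × VN (1 + 3))) 0) := by
    simpa using hG.differentiableAt.hasFDerivAt
  exact h3.comp_hasDerivAt (0 : ℂ) h1

end

/-- the derivative at infinity -/
lemma deriv_inf {t : ℂ} {z : VN (1 + 3)} (hG : AnalyticAt ℂ F.G (t, z)) (hz : z 0 = 0)
    (i : Fin 3) : fderiv ℂ F.G (t, z) (0, Pi.single i.succ 1) =
      F.c i * (d * z i.succ ^ (d - 1)) := by
  have h1 := hasDerivAt_lineG (v := Pi.single i.succ 1) hG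
  have h2 : (fun τ : ℂ => F.G (t, z + τ • Pi.single i.succ 1)) =
      fun τ => ∑ j : Fin 3, F.c j * (z j.succ + if j = i then τ else 0) ^ d := by
    funext τ
    rw [G_inf]
    · refine Finset.sum_congr rfl fun j _ => ?_
      congr 2
      simp only [Pi.add_apply, Pi.smul_apply, smul_eq_mul, Pi.single_apply, Fin.succ_inj]
      split_ifs <;> simp
    · have h3 : (Pi.single (i.succ : Fin 4) (1 : ℂ) : Fin 4 → ℂ) 0 = 0 := by
        rw [Pi.single_apply, if_neg (Fin.succ_ne_zero i).symm]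
      show z 0 + τ • (Pi.single (i.succ : Fin 4) (1 : ℂ) : Fin 4 → ℂ) 0 = 0
      rw [h3, hz]
      simp
  rw [h2] at h1
  have h3 : HasDerivAt (fun τ : ℂ => ∑ j : Fin 3, F.c j * (z j.succ + if j = i then τ else 0) ^ d)
      (∑ j : Fin 3, if j = i then F.c j * (d * z j.succ ^ (d - 1)) else 0) 0 := by
    refine HasDerivAt.fun_sum fun j _ => ?_
    by_cases hj : j = i
    · simp only [if_pos hj]
      have h4 : HasDerivAt (fun τ : ℂ => z j.succ + τ) 1 0 := by
        simpa using (hasDerivAt_id (0 : ℂ)).const_add (z j.succ)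
      have h5 := (h4.fun_pow d).const_mul (F.c j)
      simpa using h5
    · simp only [if_neg hj]
      exact hasDerivAt_const _ _
  rw [Finset.sum_ite_eq' Finset.univ i, if_pos (Finset.mem_univ i)] at h3
  exact h1.unique h3

/-- the fibre of the family of cyclic covers -/
theorem isCov (h : Dat D d M F.G H) (hM : 2 ≤ M) {t : ℂ} (ht : t ∈ D) :
    IsCov (gZ F.G H M) t (F.f t) (fun x => H (t, Fin.cons 1 x)) F.s M where
  cf := contDiff_f F t
  ch := by
    rw [← contDiffOn_univ, contDiffOn_omega_iff_analyticOn uniqueDiffOn_univ, analyticOn_univ]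
    intro x _
    refine AnalyticAt.comp (g := H) (f := fun x : Fin 3 → ℂ => (t, (Fin.cons 1 x : Fin 4 → ℂ)))
      (h.anH t ht _) ?_
    refine analyticAt_const.prod ?_
    rw [analyticAt_pi_iff]
    intro i
    refine Fin.cases ?_ (fun j => ?_) i
    · exact analyticAt_const
    · exact (ContinuousLinearMap.proj (R := ℂ) (φ := fun _ : Fin 3 => ℂ) j).analyticAt _
  aff0 x y := by
    show F.G (t, ini (vec x y)) = _
    rw [ini_vec, G_cons]
  aff1 x y := by
    show lst (vec x y) ^ M - H (t, ini (vec x y)) = _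
    rw [ini_vec, lst_vec]
  inf z hz h0 hz0 hz4 := by
    have hi := ini_ne_zero h ht hz h0
    have hi0 : ini z 0 = 0 := hz0
    obtain ⟨i, hi'⟩ : ∃ i : Fin 3, ini z i.succ ≠ 0 := by
      by_contra hcon
      push Not at hcon
      apply hi
      funext k
      exact Fin.cases hi0 (fun j => hcon j) k
    have hd := F.hd
    set A := fderiv ℂ F.G (t, ini z) (0, Pi.single i.succ 1) with hA
    set B := fderiv ℂ F.G (t, ini z) (0, Pi.single 0 1) with hB
    have hA0 : A ≠ 0 := by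
      rw [hA, deriv_inf F (h.anG t ht _) hi0]
      refine mul_ne_zero (F.hc i) (mul_ne_zero ?_ (pow_ne_zero _ hi'))
      exact_mod_cast (by omega : d ≠ 0)
    set v' : VN (1 + 3) := Pi.single 0 1 - (B / A) • Pi.single i.succ 1 with hv'
    have hM0 : (M : ℂ) * lst z ^ (M - 1) ≠ 0 := by
      refine mul_ne_zero ?_ (pow_ne_zero _ hz4)
      exact_mod_cast (by omega : M ≠ 0)
    refine ⟨snc v' (fderiv ℂ H (t, ini z) (0, v') / (M * lst z ^ (M - 1))), ?_, ?_⟩
    · funext k
      fin_cases k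
      · refine (gv_gZ h ht z _).1.trans ?_
        rw [ini_snc]
        have h1 : ((0, v') : ℂ × VN (1 + 3)) =
            (0, Pi.single 0 1) - (B / A) • (0, Pi.single i.succ 1) := by
          rw [hv']
          simp
        rw [h1, map_sub, map_smul, ← hA, ← hB, smul_eq_mul, div_mul_cancel₀ _ hA0, sub_self]
        rfl
      · refine (gv_gZ h ht z _).2.trans ?_
        rw [ini_snc, lst_snc, mul_div_cancel₀ _ hM0, sub_self]
        rfl
    · have h1 : (snc v' (fderiv ℂ H (t, ini z) (0, v') / (M * lst z ^ (M - 1)))) 0 = v' 0 :=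
        congrFun (ini_snc v' (fderiv ℂ H (t, ini z) (0, v') / (M * lst z ^ (M - 1)))) 0
      rw [h1, hv']
      have h3 : (Pi.single (i.succ : Fin 4) (1 : ℂ) : Fin 4 → ℂ) 0 = 0 := by
        rw [Pi.single_apply, if_neg (Fin.succ_ne_zero i).symm]
      have h4 : (Pi.single (0 : Fin 4) (1 : ℂ) : Fin 4 → ℂ) 0 = 1 := Pi.single_eq_same _ _
      show (Pi.single (0 : Fin 4) (1 : ℂ) : Fin 4 → ℂ) 0 -
        (B / A) • (Pi.single (i.succ : Fin 4) (1 : ℂ) : Fin 4 → ℂ) 0 ≠ 0
      rw [h3, h4]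
      simp
  br z hz h0 hz4 := by
    have h4 : (Pi.single (4 : Fin (2 + 3)) (1 : ℂ) : VN (2 + 3)) = snc 0 1 := by
      refine ext_ini ?_ ?_
      · rw [ini_snc]
        exact ini_single_last
      · rw [lst_snc]
        show (Pi.single (4 : Fin (2 + 3)) (1 : ℂ) : VN (2 + 3)) 4 = 1
        simp
    rw [h4]
    have hz4' : lst z = 0 := hz4
    funext k
    fin_cases k
    · refine (gv_gZ h ht z _).1.trans ?_
      rw [ini_snc]
      exact map_zero _
    · refine (gv_gZ h ht z _).2.trans ?_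
      rw [ini_snc, lst_snc, hz4', zero_pow (by omega)]
      have h5 : fderiv ℂ H (t, ini z) (0, 0) = 0 := map_zero _
      rw [h5]
      simp

/-- **S1-GEO-R7**: the square norm of `η` -/
theorem intF_eta (hm : 2 ≤ m) (h : Dat D d (m * (d - 4)) F.G H) (hΩD : Ω ⊆ D)
    (hZ : CIF Ω (gZ F.G H (m * (d - 4))) ![d, m * (d - 4)]) {t : ℂ} (ht : t ∈ Ω) :
    F.N m H t < ⊤ ∧
    intF (fam hZ rfl) t (fun e q => prh (fm (cf (Peta H d (m * (d - 4)))) e q)
      (fm (cf (Peta H d (m * (d - 4)))) e q)) =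
      ((4 * ((m * (d - 4) : ℕ) : ℝ) * (F.N m H t).toReal : ℝ) : ℂ) := by
  have hd := F.hd
  have hl : 0 < d - 4 := by omega
  set M : ℕ := m * (d - 4) with hMdef
  have hM2 : 2 ≤ M := by
    rw [hMdef]
    nlinarith
  have hMr : (M : ℝ) ≠ 0 := by exact_mod_cast (by omega : M ≠ 0)
  have key := intF_cyc (P := Peta H d M) (b := (M : ℂ)) (l := d - 4) (m := m) hZ ht
    (isCov F h hM2 (hΩD ht)) (by omega) hl hMdef
    (d := d) (c := F.c 2) (by omega) (F.hc 2) (pt_f F t) (hPol_Peta h hΩD) (hN_Z hd)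
    (by
      intro x y _ hy
      have hy' : y ^ M = H (t, Fin.cons 1 x) := hy
      show (M * H (t, ini (vec x y))) * lst (vec x y) ^ (d - 5) = _
      rw [ini_vec, lst_vec, ← hy', mul_assoc, ← pow_add]
      congr 2
      omega)
  refine ⟨key.1 (by exact_mod_cast (by omega : M ≠ 0)), ?_⟩
  rw [key.2]
  congr 1
  rw [Complex.norm_natCast]
  have h1 : Nk (F.f t) F.s m (fun x => H (t, Fin.cons 1 x)) = F.N m H t := rfl
  rw [h1, ← hMdef]
  field_simp

end Vale.Agent.P298.H98.R7
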