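import Vale.Agent.P298.H98.Intx
import Vale.Agent.P298.H379.Geo
import Mathlib.RingTheory.RootsOfUnity.Complex

/-!
# P298, S1-GEO-R7: the fibre sum for the cyclic cover `y^M = h`
-/

open scoped Manifold ContDiff ENNReal Topology
open MeasureTheory Set Filter
open Vale.Agent.P298 Vale.Agent.P298.H379 Vale.Agent.P272.K Vale.Agent.P272.K.INT

noncomputable section

namespace Vale.Agent.P298.H98

/-- the number of roots of `y^M = c` -/
lemma encard_roots {M : ℕ} (hM : 0 < M) {c : ℂ} (hc : c ≠ 0) :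
    {y : ℂ | y ≠ 0 ∧ y ^ M = c}.encard = M := by
  have h1 : {y : ℂ | y ≠ 0 ∧ y ^ M = c} = ((Polynomial.nthRoots M c).toFinset : Set ℂ) := by
    ext y
    simp only [mem_ofPred_eq, Finset.mem_coe, Multiset.mem_toFinset, Polynomial.mem_nthRoots hM]
    constructor
    · exact fun h => h.2
    · intro h
      refine ⟨?_, h⟩
      rintro rfl
      rw [zero_pow hM.ne'] at h
      exact hc h.symm
  have hp := Complex.isPrimitiveRoot_exp M hM.ne'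
  have h2 : (Polynomial.nthRoots M c).toFinset.card = M := by
    rw [Multiset.toFinset_card_of_nodup (hp.nthRoots_nodup hc), hp.card_nthRoots, if_pos]
    obtain ⟨y, hy⟩ := IsAlgClosed.exists_pow_nat_eq c hM
    exact ⟨y, hy⟩
  rw [h1, encard_coe_eq_coe_finsetCard, h2]

/-- sum over the roots of `y^M = c` -/
lemma tsum_roots {M m l : ℕ} (hm : 0 < m) (hl : 0 < l) (hM : M = m * l) (c : ℂ) (A : ℝ≥0∞) :
    ∑' y : {y : ℂ | y ≠ 0 ∧ y ^ M = c}, ‖(y : ℂ)‖ₑ ^ (2 * l) / A =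
      M * (‖c‖ₑ ^ (2 / (m : ℝ)) / A) := by
  have hM0 : 0 < M := by rw [hM]; positivity
  have hm' : (0 : ℝ) < m := by exact_mod_cast hm
  have h0 : ∀ y : ℂ, y ^ M = c → ‖y‖ₑ ^ (2 * l) / A = ‖c‖ₑ ^ (2 / (m : ℝ)) / A := by
    intro y h2
    rw [← h2, enorm_pow, ← ENNReal.rpow_natCast, ← ENNReal.rpow_natCast, ← ENNReal.rpow_mul]
    congr 2
    rw [hM]
    push_cast
    field_simp
  have h1 : ∀ y : {y : ℂ | y ≠ 0 ∧ y ^ M = c}, ‖(y : ℂ)‖ₑ ^ (2 * l) / A =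
      ‖c‖ₑ ^ (2 / (m : ℝ)) / A := fun y => h0 y y.2.2
  simp only [h1]
  by_cases hc : c = 0
  · have h2 : IsEmpty {y : ℂ | y ≠ 0 ∧ y ^ M = c} := by
      refine ⟨fun y => ?_⟩
      have h3 : (y : ℂ) ^ M = 0 := y.2.2.trans hc
      exact y.2.1 (pow_eq_zero_iff hM0.ne' |>.1 h3)
    rw [tsum_empty, hc, enorm_zero, ENNReal.zero_rpow_of_pos (by positivity), ENNReal.zero_div,
      mul_zero]
  · rw [ENNReal.tsum_const, ENat.card_coe_set_eq, encard_roots hM0 hc]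
    simp

/-- **The fibre sum for the cyclic cover.** -/
theorem fsum_cyc {X : Type*} {f h : (Fin 3 → ℂ) → ℂ} {s : ℂ} {M m l : ℕ} (hm : 0 < m) (hl : 0 < l)
    (hM : M = m * l) {x : X → (Fin 3 → ℂ)} {Y : X → ℂ} {Good : Set X}
    (hinj : InjOn (fun z => (x z, Y z)) Good)
    (himg : ∀ (p : Fin 3 → ℂ) (y : ℂ), (f p = s ∧ pd 2 f p ≠ 0 ∧ y ≠ 0 ∧ y ^ M = h p) ↔
      ∃ z ∈ Good, x z = p ∧ Y z = y) (q : Cm 2) :
    fsum (fun z => (![x z 0, x z 1] : Cm 2)) Good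
      (fun z => ‖Y z‖ₑ ^ (2 * l) / ‖pd 2 f (x z)‖ₑ ^ 2) q =
      M * rootSum f s (fun p => ‖h p‖ₑ ^ (2 / (m : ℝ))) (q 0, q 1) := by
  set S : Set X := Good ∩ (fun z => (![x z 0, x z 1] : Cm 2)) ⁻¹' {q} with hS
  have hx : ∀ z ∈ S, x z = pt (q 0, q 1) (x z 2) := by
    intro z hz
    have h1 : (![x z 0, x z 1] : Cm 2) = q := hz.2
    have h2 : x z 0 = q 0 := congrFun h1 0
    have h3 : x z 1 = q 1 := congrFun h1 1
    funext i
    fin_cases i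
    · exact h2
    · exact h3
    · rfl
  -- the correspondence
  set S' : Set (ℂ × ℂ) := {w | w.1 ∈ Rts f s (q 0, q 1) ∧ w.2 ≠ 0 ∧
    w.2 ^ M = h (pt (q 0, q 1) w.1)} with hS'
  have hmem : ∀ z ∈ S, (x z 2, Y z) ∈ S' := by
    intro z hz
    have h1 := (himg (x z) (Y z)).2 ⟨z, hz.1, rfl, rfl⟩
    rw [hx z hz] at h1
    exact ⟨⟨h1.1, h1.2.1⟩, h1.2.2.1, h1.2.2.2⟩
  let E : S ≃ S' :=
    Equiv.ofBijective (fun z => ⟨(x z 2, Y z), hmem z z.2⟩) (by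
      constructor
      · intro z z' hzz
        apply Subtype.ext
        have hzz' : (x z 2, Y z) = (x z' 2, Y z') := congrArg Subtype.val hzz
        have h1 : x z 2 = x z' 2 := congrArg Prod.fst hzz'
        have h2 : Y z = Y z' := congrArg Prod.snd hzz'
        have hxx : x z = x z' := by
          rw [hx z z.2, hx z' z'.2, h1]
        exact hinj z.2.1 z'.2.1 (Prod.ext hxx h2)
      · rintro ⟨⟨w, y⟩, hw, hy, hyM⟩
        obtain ⟨z, hz, hxz, hYz⟩ := (himg (pt (q 0, q 1) w) y).1 ⟨hw.1, hw.2, hy, hyM⟩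
        have hzS : z ∈ S := by
          refine ⟨hz, ?_⟩
          show (![x z 0, x z 1] : Cm 2) = q
          rw [hxz]
          funext i
          fin_cases i <;> rfl
        have hw2 : x z 2 = w := by rw [hxz]; rfl
        exact ⟨⟨z, hzS⟩, Subtype.ext (Prod.ext hw2 hYz)⟩)
  set g : ℂ × ℂ → ℝ≥0∞ := fun w =>
    ‖w.2‖ₑ ^ (2 * l) / ‖pd 2 f (pt (q 0, q 1) w.1)‖ₑ ^ 2 with hg
  have h1 : fsum (fun z => (![x z 0, x z 1] : Cm 2)) Good
      (fun z => ‖Y z‖ₑ ^ (2 * l) / ‖pd 2 f (x z)‖ₑ ^ 2) q =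
      ∑' z : S, ‖Y z‖ₑ ^ (2 * l) / ‖pd 2 f (x z)‖ₑ ^ 2 := by
    unfold fsum
    rw [← tsum_subtype]
  have h2 : ∑' z : S, ‖Y z‖ₑ ^ (2 * l) / ‖pd 2 f (x z)‖ₑ ^ 2 = ∑' w : S', g w := by
    rw [← E.tsum_eq]
    refine tsum_congr fun z => ?_
    have h3 : ((E z : S') : ℂ × ℂ) = (x z 2, Y z) := rfl
    rw [h3, hg]
    simp only
    rw [← hx z z.2]
  have h5 : ∀ w : ℂ, ∑' y : ℂ, S'.indicator g (w, y) =
      (Rts f s (q 0, q 1)).indicator (fun w => M * (‖h (pt (q 0, q 1) w)‖ₑ ^ (2 / (m : ℝ)) /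
        ‖pd 2 f (pt (q 0, q 1) w)‖ₑ ^ 2)) w := by
    intro w
    by_cases hw : w ∈ Rts f s (q 0, q 1)
    · rw [indicator_of_mem hw, ← tsum_roots hm hl hM (h (pt (q 0, q 1) w)),
        tsum_subtype {y : ℂ | y ≠ 0 ∧ y ^ M = h (pt (q 0, q 1) w)}
          (fun y => ‖y‖ₑ ^ (2 * l) / ‖pd 2 f (pt (q 0, q 1) w)‖ₑ ^ 2)]
      refine tsum_congr fun y => ?_
      by_cases hy : y ≠ 0 ∧ y ^ M = h (pt (q 0, q 1) w)
      · rw [indicator_of_mem (show (w, y) ∈ S' from ⟨hw, hy⟩), indicator_of_mem (by exact hy)]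
      · rw [indicator_of_notMem (fun h' : (w, y) ∈ S' => hy h'.2),
          indicator_of_notMem (by exact hy)]
    · rw [indicator_of_notMem hw, ENNReal.tsum_eq_zero]
      intro y
      rw [indicator_of_notMem (fun h' : (w, y) ∈ S' => hw h'.1)]
  rw [h1, h2, tsum_subtype S' g, ENNReal.tsum_prod']
  simp only [h5]
  rw [← tsum_subtype (Rts f s (q 0, q 1)), ENNReal.tsum_mul_left]
  rfl

/-- the integral over `Cm 2` and over `ℂ × ℂ` -/
lemma lintegral_rootSum (f : (Fin 3 → ℂ) → ℂ) (s : ℂ) (φ : (Fin 3 → ℂ) → ℝ≥0∞) :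
    ∫⁻ q : Cm 2, rootSum f s φ (q 0, q 1) = nu f s φ := by
  have h1 := (volume_preserving_finTwoArrow ℂ).lintegral_comp_emb
    (MeasurableEquiv.finTwoArrow (α := ℂ)).measurableEmbedding (rootSum f s φ)
  exact h1

variable {X : Type*} [TopologicalSpace X] [ChartedSpace (Cm 2) X]
  [IsManifold 𝓘(ℂ, Cm 2) ω X] [T2Space X] [CompactSpace X]

/-- **S1-GEO-R7, abstract form.** `X` a compact complex surface with an open set `Good` of full
measure which is, by means of `x, Y`, the cyclic cover `Y^M = h` of the part `∂₃f ≠ 0`, `h ≠ 0` of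
the affine surface `f = s`; the density `D` is `|Y|^{2l} |dx₁ ∧ dx₂ / ∂₃f|²`, up to the factor `κ`.
Then `∫_X D = κ M ∫_{f = s} |h|^{2/m} |ω|²`. -/
theorem intX_cyc {f h : (Fin 3 → ℂ) → ℂ} {s : ℂ} {M m l : ℕ} (hm : 0 < m) (hl : 0 < l)
    (hM : M = m * l) {x : X → (Fin 3 → ℂ)} {Y : X → ℂ} {Good : Set X} (hG : IsOpen Good)
    (hinj : InjOn (fun z => (x z, Y z)) Good)
    (himg : ∀ (p : Fin 3 → ℂ) (y : ℂ), (f p = s ∧ pd 2 f p ≠ 0 ∧ y ≠ 0 ∧ y ^ M = h p) ↔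
      ∃ z ∈ Good, x z = p ∧ Y z = y)
    {D : Chart 2 X → Cm 2 → ℝ} (hD : IsDensity D)
    (hD0 : ∀ (e : Chart 2 X) (z : X), At e z → 0 ≤ D e (e z))
    (hnull : ∀ e ∈ atlas (Cm 2) X, volume (e.target \ e.symm ⁻¹' Good) = 0)
    (hP : ∀ (e : Chart 2 X) (z : X), At e z → z ∈ Good →
      ContDiffAt ℂ 1 (fun w => (![x (e.symm w) 0, x (e.symm w) 1] : Cm 2)) (e z))
    {κ : ℝ} (hκ : 0 ≤ κ)
    (hJ : ∀ (e : Chart 2 X) (z : X), At e z → z ∈ Good →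
      (fderiv ℝ (fun w => (![x (e.symm w) 0, x (e.symm w) 1] : Cm 2)) (e z)).det ≠ 0 ∧
      D e (e z) = κ * |(fderiv ℝ (fun w => (![x (e.symm w) 0, x (e.symm w) 1] : Cm 2)) (e z)).det| *
        (‖Y z‖ ^ (2 * l) / ‖pd 2 f (x z)‖ ^ 2)) :
    ENNReal.ofReal (intX D) = ENNReal.ofReal κ * M * Nk f s m h := by
  have hgood : ∀ z ∈ Good, pd 2 f (x z) ≠ 0 := fun z hz =>
    ((himg (x z) (Y z)).2 ⟨z, hz, rfl, rfl⟩).2.1
  have key := intX_eq_fsum hD hD0 hG hnull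
    (P := fun z => (![x z 0, x z 1] : Cm 2))
    (fun e z hz hg => ((hP e z hz hg).restrict_scalars ℝ).hasStrictFDerivAt one_ne_zero)
    (fun e z hz hg => (hJ e z hz hg).1)
    (δ := fun z => ENNReal.ofReal κ * (‖Y z‖ₑ ^ (2 * l) / ‖pd 2 f (x z)‖ₑ ^ 2))
    (by
      intro e z hz hg
      rw [(hJ e z hz hg).2]
      have h2 : ‖Y z‖ₑ ^ (2 * l) / ‖pd 2 f (x z)‖ₑ ^ 2 =
          ENNReal.ofReal (‖Y z‖ ^ (2 * l) / ‖pd 2 f (x z)‖ ^ 2) := by
        have h3 : 0 < ‖pd 2 f (x z)‖ := norm_pos_iff.2 (hgood z hg)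
        rw [ENNReal.ofReal_div_of_pos (by positivity), ENNReal.ofReal_pow (norm_nonneg _),
          ENNReal.ofReal_pow (norm_nonneg _), ofReal_norm, ofReal_norm]
      rw [h2, ENNReal.ofReal_mul (by positivity), ENNReal.ofReal_mul hκ]
      ring)
  rw [key.2]
  have h4 : ∀ q, fsum (fun z => (![x z 0, x z 1] : Cm 2)) Good
      (fun z => ENNReal.ofReal κ * (‖Y z‖ₑ ^ (2 * l) / ‖pd 2 f (x z)‖ₑ ^ 2)) q =
      (ENNReal.ofReal κ * M) * rootSum f s (fun p => ‖h p‖ₑ ^ (2 / (m : ℝ))) (q 0, q 1) := by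
    intro q
    have h5 := fsum_cyc hm hl hM hinj himg q
    rw [mul_assoc, ← h5]
    unfold fsum
    rw [← ENNReal.tsum_mul_left]
    refine tsum_congr fun z => ?_
    by_cases hz : z ∈ Good ∩ (fun z => (![x z 0, x z 1] : Cm 2)) ⁻¹' {q}
    · rw [indicator_of_mem hz, indicator_of_mem hz]
    · rw [indicator_of_notMem hz, indicator_of_notMem hz, mul_zero]
  simp only [h4]
  rw [lintegral_const_mul' _ _ (ENNReal.mul_ne_top ENNReal.ofReal_ne_top (ENNReal.natCast_ne_top M)),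
    lintegral_rootSum]
  rfl

end Vale.Agent.P298.H98
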