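import Vale.Agent.P298.H98.Area
import Vale.Agent.P272.K.INT.Dens

/-!
# P298, S1-GEO-R7: the integral over a compact complex manifold as a sum over the fibres of a map
to `ℂⁿ`
-/

open scoped Manifold ContDiff ENNReal Topology
open MeasureTheory Set Filter
open Vale.Agent.P272.K Vale.Agent.P272.K.INT

noncomputable section

namespace Vale.Agent.P298.H98

variable {n : ℕ} {X : Type*} [TopologicalSpace X] [ChartedSpace (Cm n) X]
  [IsManifold 𝓘(ℂ, Cm n) ω X] [T2Space X] [CompactSpace X]

/-- **Integration over `X` by means of a map `P : X → ℂⁿ`** which, on the open set `Good` of full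
measure, is a local diffeomorphism. -/
theorem intX_eq_fsum {D : Chart n X → Cm n → ℝ} (hD : IsDensity D)
    (hD0 : ∀ (e : Chart n X) (x : X), At e x → 0 ≤ D e (e x)) {Good : Set X} (hG : IsOpen Good)
    (hnull : ∀ e ∈ atlas (Cm n) X, volume (e.target \ e.symm ⁻¹' Good) = 0)
    {P : X → Cm n}
    (hP : ∀ (e : Chart n X) (x : X), At e x → x ∈ Good →
      HasStrictFDerivAt (fun z => P (e.symm z)) (fderiv ℝ (fun z => P (e.symm z)) (e x)) (e x))
    (hP' : ∀ (e : Chart n X) (x : X), At e x → x ∈ Good → (fderiv ℝ (fun z => P (e.symm z)) (e x)).det ≠ 0)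
    {δ : X → ℝ≥0∞}
    (hδ : ∀ (e : Chart n X) (x : X), At e x → x ∈ Good → ENNReal.ofReal (D e (e x)) =
      ENNReal.ofReal |(fderiv ℝ (fun z => P (e.symm z)) (e x)).det| * δ x) :
    Measurable (fsum P Good δ) ∧ ENNReal.ofReal (intX D) = ∫⁻ y, fsum P Good δ y := by
  set Pt := part n X with hPt
  have hDe : ∀ i, ∀ z ∈ (Pt.e i).target, 0 ≤ D (Pt.e i) z := by
    intro i z hz
    have := hD0 (Pt.e i) ((Pt.e i).symm z) ⟨Pt.mem i, (Pt.e i).map_target hz⟩
    rwa [(Pt.e i).right_inv hz] at this
  have hopen : ∀ i, IsOpen ((Pt.e i).target ∩ (Pt.e i).symm ⁻¹' Good) := fun i =>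
    (Pt.e i).continuousOn_symm.isOpen_inter_preimage (Pt.e i).open_target hG
  -- values of `δ` in the charts
  have hδe : ∀ i, ∀ z ∈ (Pt.e i).target ∩ (Pt.e i).symm ⁻¹' Good, δ ((Pt.e i).symm z) =
      ENNReal.ofReal (D (Pt.e i) z) /
        ENNReal.ofReal |(fderiv ℝ (fun z => P ((Pt.e i).symm z)) z).det| := by
    intro i z hz
    have hat : At (Pt.e i) ((Pt.e i).symm z) := ⟨Pt.mem i, (Pt.e i).map_target hz.1⟩
    have h1 := hδ (Pt.e i) ((Pt.e i).symm z) hat hz.2
    have h2 := hP' (Pt.e i) ((Pt.e i).symm z) hat hz.2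
    rw [(Pt.e i).right_inv hz.1] at h1 h2
    rw [h1, mul_comm, ENNReal.mul_div_cancel_right]
    · simpa using h2
    · exact ENNReal.ofReal_ne_top
  have key := bridge (μ := (volume : Measure (Cm n))) (X := X) (N := Pt.N)
    (T := fun i => (Pt.e i).target) (q := fun i => (Pt.e i).symm)
    (fun i => (Pt.e i).symm.injOn)
    (ρ := fun i x => ENNReal.ofReal (Pt.ρ i x))
    (by
      intro i x hx
      have hx' : x ∉ (Pt.e i).source := by
        intro h
        exact hx ⟨Pt.e i x, (Pt.e i).map_source h, (Pt.e i).left_inv h⟩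
      have : x ∉ tsupport (Pt.ρ i) := fun h => hx' (Pt.supp i h)
      rw [image_eq_zero_of_notMem_tsupport this, ENNReal.ofReal_zero])
    (Good := Good)
    (by
      intro x _
      rw [← ENNReal.ofReal_sum_of_nonneg fun i _ => Pt.nonneg i x, Pt.sum, ENNReal.ofReal_one])
    (P := P) (δ := δ)
    (fun i => (hopen i).measurableSet)
    (fun i => hnull _ (Pt.mem i))
    (P' := fun i z => fderiv ℝ (fun z => P ((Pt.e i).symm z)) z)
    (by
      intro i z hz hg
      have := hP (Pt.e i) ((Pt.e i).symm z) ⟨Pt.mem i, (Pt.e i).map_target hz⟩ hg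
      rwa [(Pt.e i).right_inv hz] at this)
    (by
      intro i z hz hg
      have := hP' (Pt.e i) ((Pt.e i).symm z) ⟨Pt.mem i, (Pt.e i).map_target hz⟩ hg
      rwa [(Pt.e i).right_inv hz] at this)
    (D := fun i z => ENNReal.ofReal (D (Pt.e i) z))
    (by
      intro i z hz hg
      have := hδ (Pt.e i) ((Pt.e i).symm z) ⟨Pt.mem i, (Pt.e i).map_target hz⟩ hg
      rwa [(Pt.e i).right_inv hz] at this)
    (by
      intro i
      have h1 : ContinuousOn (fun z => Pt.ρ i ((Pt.e i).symm z)) (Pt.e i).target :=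
        (Pt.cont i).comp_continuousOn (Pt.e i).continuousOn_symm
      have h2 : ContinuousOn (D (Pt.e i)) (Pt.e i).target := hD.continuousOn (Pt.mem i)
      have h3 : Measurable fun z : ((Pt.e i).target ∩ (Pt.e i).symm ⁻¹' Good : Set (Cm n)) =>
          Pt.ρ i ((Pt.e i).symm z) :=
        ((h1.mono inter_subset_left).domRestrict).measurable
      have h4 : Measurable fun z : ((Pt.e i).target ∩ (Pt.e i).symm ⁻¹' Good : Set (Cm n)) =>
          D (Pt.e i) z :=
        ((h2.mono inter_subset_left).domRestrict).measurable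
      have h5 : Measurable fun z : ((Pt.e i).target ∩ (Pt.e i).symm ⁻¹' Good : Set (Cm n)) =>
          |(fderiv ℝ (fun z => P ((Pt.e i).symm z)) z).det| := by
        have h6 : Measurable fun z : Cm n => fderiv ℝ (fun z => P ((Pt.e i).symm z)) z :=
          measurable_fderiv ℝ _
        have h7 : Measurable fun z : Cm n =>
            |(fderiv ℝ (fun z => P ((Pt.e i).symm z)) z).det| := by
          have h8 : Continuous fun L : Cm n →L[ℝ] Cm n => |L.det| :=
            ContinuousLinearMap.continuous_det.abs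
          exact h8.measurable.comp h6
        exact h7.comp measurable_subtype_coe
      have h9 : (fun z : ((Pt.e i).target ∩ (Pt.e i).symm ⁻¹' Good : Set (Cm n)) =>
          ENNReal.ofReal (Pt.ρ i ((Pt.e i).symm z)) * δ ((Pt.e i).symm z)) =
          fun z : ((Pt.e i).target ∩ (Pt.e i).symm ⁻¹' Good : Set (Cm n)) =>
            ENNReal.ofReal (Pt.ρ i ((Pt.e i).symm z)) * (ENNReal.ofReal (D (Pt.e i) z) /
              ENNReal.ofReal |(fderiv ℝ (fun z => P ((Pt.e i).symm z)) z).det|) := by
        funext z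
        rw [hδe i z z.2]
      rw [h9]
      exact h3.ennreal_ofReal.mul (h4.ennreal_ofReal.div h5.ennreal_ofReal))
  refine ⟨key.1, ?_⟩
  rw [← key.2]
  unfold intX
  rw [ENNReal.ofReal_sum_of_nonneg]
  · refine Finset.sum_congr rfl fun i _ => ?_
    rw [ofReal_integral_eq_lintegral_ofReal (integrableOn_part Pt hD i)]
    · refine setLIntegral_congr_fun (Pt.e i).open_target.measurableSet fun z hz => ?_
      rw [ENNReal.ofReal_mul (Pt.nonneg i _)]
    · rw [Filter.EventuallyLE, ae_restrict_iff' (Pt.e i).open_target.measurableSet]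
      refine Eventually.of_forall fun z hz => ?_
      exact mul_nonneg (Pt.nonneg i _) (hDe i z hz)
  · intro i _
    refine setIntegral_nonneg (Pt.e i).open_target.measurableSet fun z hz => ?_
    exact mul_nonneg (Pt.nonneg i _) (hDe i z hz)

end Vale.Agent.P298.H98
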