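import Vale.Agent.P298.H863.C6
import Vale.Agent.P298.H98.Cyc
import Vale.Agent.P271.LOCE.Pos

/-!
# P298, S1-GEO-R7: tangent spaces of the fibres and null sets in fibre charts
-/

open scoped Manifold ContDiff ENNReal Topology
open MeasureTheory Set Filter
open Vale.Agent.P298 Vale.Agent.P298.H379 Vale.Agent.P272.K Vale.Agent.P272.K.INT
open Vale.Agent.P298.H39 Vale.Agent.P298.H863

noncomputable section

namespace Vale.Agent.P298.H98.R7

/-- a set which is locally contained in zero sets of holomorphic functions is a null set -/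
lemma null_of_local {S : Set (Cm 2)} (h : ∀ w ∈ S, ∃ φ : Cm 2 → ℂ, AnalyticAt ℂ φ w ∧
    (∃ᶠ w' in 𝓝 w, φ w' ≠ 0) ∧ ∀ᶠ w' in 𝓝 w, w' ∈ S → φ w' = 0) : volume S = 0 := by
  refine measure_null_of_locally_null S fun w hw => ?_
  obtain ⟨φ, hφ, hne, hz⟩ := h w hw
  obtain ⟨U, hU, hUo, hwU⟩ := mem_nhds_iff.1 hφ.eventually_analyticAt
  have hd : DifferentiableOn ℂ φ U := fun y hy => (hU hy).differentiableAt.differentiableWithinAt
  obtain ⟨δ, hδ, -, hnull⟩ := Vale.Agent.P271.LOCE.zero_null volume hUo hd hwU hne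
  refine ⟨{w' | w' ∈ S ∧ w' ∈ Metric.ball w δ ∧ (w' ∈ S → φ w' = 0)}, ?_, ?_⟩
  · rw [mem_nhdsWithin_iff_eventually]
    filter_upwards [hz, Metric.ball_mem_nhds w hδ] with w' h1 h2 h3
    exact ⟨h3, h2, h1⟩
  · refine measure_mono_null ?_ hnull
    rintro w' ⟨h1, h2, h3⟩
    exact ⟨h2, h3 h1⟩

variable {K : ℕ} {Ω : Set ℂ} {G : ℂ × VN (K + 3) → (Fin K → ℂ)} {dg : Fin K → ℕ}
  {L : Cm 2 × ℂ → ℂ × VN (K + 3)} {e : PC (TZ Ω G)} {q : Cm 2 × ℂ}

/-- the tangent space of the cone over a point is spanned by the lift and its derivatives -/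
lemma span_lift (h : CIF Ω G dg) (he : IsPC e) (hq : q ∈ e.target) (hL : IsL L e q)
    {v : VN (K + 3)} (hv : gv G (L q) v = 0) :
    ∃ a b d : ℂ, v = a • (L q).2 + b • dl L q 0 + d • dl L q 1 := by
  have hc := hL.mem_cone h
  set W := LinearMap.ker (gv G (L q) : VN (K + 3) →ₗ[ℂ] (Fin K → ℂ)) with hW
  have hWd : Module.finrank ℂ W = 3 := by
    have h1 := LinearMap.finrank_range_add_finrank_ker
      (gv G (L q) : VN (K + 3) →ₗ[ℂ] (Fin K → ℂ))
    have h2 : LinearMap.range (gv G (L q) : VN (K + 3) →ₗ[ℂ] (Fin K → ℂ)) = ⊤ :=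
      LinearMap.range_eq_top.2 fun a => gv_surj h hc a
    rw [h2, finrank_top, ← hW] at h1
    simp only [Module.finrank_fintype_fun_eq_card, Fintype.card_fin] at h1
    omega
  have hm : ∀ c : Fin 3 → ℂ, c 0 • (L q).2 + c 1 • dl L q 0 + c 2 • dl L q 1 ∈ W := by
    intro c
    show gv G (L q) (c 0 • (L q).2 + c 1 • dl L q 0 + c 2 • dl L q 1) = 0
    rw [map_add, map_add, map_smul, map_smul, map_smul, gv_self h hc, hL.gv_dl h he hq,
      hL.gv_dl h he hq]
    simp
  let Φ : (Fin 3 → ℂ) →ₗ[ℂ] W :=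
    { toFun := fun c => ⟨c 0 • (L q).2 + c 1 • dl L q 0 + c 2 • dl L q 1, hm c⟩
      map_add' := by
        intro c c'
        apply Subtype.ext
        simp only [Pi.add_apply, add_smul, Submodule.coe_add]
        abel
      map_smul' := by
        intro c c'
        apply Subtype.ext
        simp only [Pi.smul_apply, smul_eq_mul, RingHom.id_apply, Submodule.coe_smul, smul_add,
          smul_smul] }
  have hinj : Function.Injective Φ := by
    rw [injective_iff_map_eq_zero]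
    intro c hc0
    have h1 : c 0 • (L q).2 + c 1 • dl L q 0 + c 2 • dl L q 1 = 0 := congrArg Subtype.val hc0
    obtain ⟨h2, h3, h4⟩ := hL.indep3 he hq _ _ _ h1
    funext i
    fin_cases i
    · exact h2
    · exact h3
    · exact h4
  have hsurj : Function.Surjective Φ := by
    refine (LinearMap.injective_iff_surjective_of_finrank_eq_finrank ?_).1 hinj
    rw [hWd]
    simp
  obtain ⟨c, hc'⟩ := hsurj ⟨v, hv⟩
  exact ⟨c 0, c 1, c 2, (congrArg Subtype.val hc').symm⟩

/-- the derivative of the lift along the fibre -/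
lemma hasFDerivAt_fib {w : Cm 2} {t : ℂ} (hL : AnalyticAt ℂ L (w, t)) :
    HasFDerivAt (fun w' : Cm 2 => (L (w', t)).2)
      (((ContinuousLinearMap.snd ℂ ℂ (VN (K + 3))).comp (fderiv ℂ L (w, t))).comp
        (ContinuousLinearMap.inl ℂ (Cm 2) ℂ)) w := by
  have h1 : HasFDerivAt (fun w' : Cm 2 => (w', t)) (ContinuousLinearMap.inl ℂ (Cm 2) ℂ) w := by
    have := (hasFDerivAt_id (𝕜 := ℂ) w).prodMk (hasFDerivAt_const t w)
    exact this
  have h2 : HasFDerivAt (fun w' : Cm 2 => L (w', t))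
      ((fderiv ℂ L (w, t)).comp (ContinuousLinearMap.inl ℂ (Cm 2) ℂ)) w :=
    HasFDerivAt.comp (g := L) (f := fun w' : Cm 2 => (w', t)) w hL.differentiableAt.hasFDerivAt h1
  exact h2.snd

/-- a function which vanishes on the fibre near a point has derivative zero in the tangent
directions -/
lemma tang {w : Cm 2} {t : ℂ} (hL : AnalyticAt ℂ L (w, t)) {φ : VN (K + 3) → ℂ}
    (hφ : DifferentiableAt ℂ φ (L (w, t)).2) (h0 : ∀ᶠ w' in 𝓝 w, φ (L (w', t)).2 = 0)
    (j : Fin 2) : fderiv ℂ φ (L (w, t)).2 (dl L (w, t) j) = 0 := by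
  have h1 := HasFDerivAt.comp (g := φ) (f := fun w' : Cm 2 => (L (w', t)).2) w hφ.hasFDerivAt
    (hasFDerivAt_fib hL)
  have h2 : (φ ∘ fun w' : Cm 2 => (L (w', t)).2) =ᶠ[𝓝 w] fun _ => 0 := h0
  have h3 := ((hasFDerivAt_const (0 : ℂ) w).congr_of_eventuallyEq h2).unique h1
  have h4 := congrArg (fun l : Cm 2 →L[ℂ] ℂ => l (Pi.single j 1)) h3
  exact h4.symm

/-- if a homogeneous coordinate vanishes near a point, then it vanishes on the tangent space -/
lemma coord_zero (h : CIF Ω G dg) (he : IsPC e) {w : Cm 2} {t : ℂ} (hq : (w, t) ∈ e.target)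
    (hL : IsL L e (w, t)) {i : Fin (K + 3)} (h0 : ∀ᶠ w' in 𝓝 w, (L (w', t)).2 i = 0)
    {v : VN (K + 3)} (hv : gv G (L (w, t)) v = 0) : v i = 0 := by
  obtain ⟨a, b, d, rfl⟩ := span_lift h he hq hL hv
  have h1 : ∀ j, dl L (w, t) j i = 0 := by
    intro j
    have h2 : DifferentiableAt ℂ (fun z : VN (K + 3) => z i) (L (w, t)).2 := by fun_prop
    have h3 := tang hL.an h2 h0 j
    have h4 : fderiv ℂ (fun z : VN (K + 3) => z i) (L (w, t)).2 =
        ContinuousLinearMap.proj (R := ℂ) (φ := fun _ : Fin (K + 3) => ℂ) i :=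
      (ContinuousLinearMap.proj (R := ℂ) (φ := fun _ : Fin (K + 3) => ℂ) i).hasFDerivAt.fderiv
    rw [h4] at h3
    exact h3
  have h5 : (L (w, t)).2 i = 0 := h0.self_of_nhds
  simp [h1, h5]

/-- normalized homogeneous coordinates are analytic -/
lemma anZ_sg {a : Fin (K + 3)} {z : TZ Ω G} (hz : z ∈ Ua Ω G a) : AnZ (sg a) z := by
  have hr := rep_sg hz
  have hne : (sg a z).2 a ≠ 0 := by rw [sg_self hz]; exact one_ne_zero
  refine AnZ.of_rep hr (E := fun y => (y.1, (y.2 a)⁻¹ • y.2)) ?_ ?_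
  · have h2 : AnalyticAt ℂ (fun y : ℂ × VN (K + 3) => y.2 a) (sg a z) :=
      ((ContinuousLinearMap.proj (R := ℂ) (φ := fun _ : Fin (K + 3) => ℂ) a).comp
        (ContinuousLinearMap.snd ℂ ℂ (VN (K + 3)))).analyticAt _
    exact analyticAt_fst.prod ((h2.inv hne).fun_smul analyticAt_snd)
  · have h2 : ContinuousAt (fun y : ℂ × VN (K + 3) => y.2 a) (sg a z) :=
      ((continuous_apply a).comp continuous_snd).continuousAt
    filter_upwards [h2.eventually_ne hne] with y hy z' hz'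
    exact hz'.sg_eq hy

/-- the normalized lift -/
def nl (e : PC (TZ Ω G)) (a : Fin (K + 3)) (q : Cm 2 × ℂ) : ℂ × VN (K + 3) := sg a (e.symm q)

lemma isL_nl (he : IsPC e) (hq : q ∈ e.target) {a : Fin (K + 3)} (ha : e.symm q ∈ Ua Ω G a) :
    IsL (nl e a) e q := by
  refine ⟨AnZ.comp_lift (he.lift q hq) (anZ_sg ha), ?_⟩
  filter_upwards [(e.continuousAt_symm hq).eventually ((isOpen_Ua a).mem_nhds ha)] with q' hq'
  exact rep_sg hq'

/-- vectors of the tangent space normalized by `v a = 0` -/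
lemma span_nl (h : CIF Ω G dg) (he : IsPC e) (hq : q ∈ e.target) {a : Fin (K + 3)}
    (ha : e.symm q ∈ Ua Ω G a) {v : VN (K + 3)} (hv : gv G (nl e a q) v = 0) (hva : v a = 0) :
    ∃ b d : ℂ, v = b • dl (nl e a) q 0 + d • dl (nl e a) q 1 := by
  have hL := isL_nl he hq ha
  obtain ⟨c, b, d, hv'⟩ := span_lift h he hq hL hv
  have h0 : ∀ j, dl (nl e a) q j a = 0 := by
    intro j
    have h1 : HasFDerivAt (fun q' => (nl e a q').2 a)
        (((ContinuousLinearMap.proj (R := ℂ) (φ := fun _ : Fin (K + 3) => ℂ) a).comp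
          (ContinuousLinearMap.snd ℂ ℂ (VN (K + 3)))).comp (fderiv ℂ (nl e a) q)) q :=
      HasFDerivAt.comp (g := fun y : ℂ × VN (K + 3) => y.2 a) q
        ((ContinuousLinearMap.proj (R := ℂ) (φ := fun _ : Fin (K + 3) => ℂ) a).comp
          (ContinuousLinearMap.snd ℂ ℂ (VN (K + 3)))).hasFDerivAt
        hL.an.differentiableAt.hasFDerivAt
    have h2 : (fun q' => (nl e a q').2 a) =ᶠ[𝓝 q] fun _ => 1 := by
      filter_upwards [(e.continuousAt_symm hq).eventually ((isOpen_Ua a).mem_nhds ha)] with q' hq'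
      exact sg_self hq'
    have h3 := ((hasFDerivAt_const (1 : ℂ) q).congr_of_eventuallyEq h2).unique h1
    exact (congrArg (fun l : Cm 2 × ℂ →L[ℂ] ℂ => l (Pi.single j 1, 0)) h3).symm
  have h1 : (nl e a q).2 a = 1 := sg_self ha
  have h2 : c = 0 := by
    have h3 := congrFun hv' a
    simp only [Pi.add_apply, Pi.smul_apply, smul_eq_mul, h0, h1, hva] at h3
    simpa using h3.symm
  refine ⟨b, d, ?_⟩
  rw [hv', h2, zero_smul, zero_add]

/-- a function vanishing on the fibre near a point has derivative zero on the normalized tangent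
vectors -/
lemma tang_nl (h : CIF Ω G dg) (he : IsPC e) {w : Cm 2} {t : ℂ} (hq : (w, t) ∈ e.target)
    {a : Fin (K + 3)} (ha : e.symm (w, t) ∈ Ua Ω G a) {φ : VN (K + 3) → ℂ}
    (hφ : DifferentiableAt ℂ φ (nl e a (w, t)).2)
    (h0 : ∀ᶠ w' in 𝓝 w, φ (nl e a (w', t)).2 = 0) {v : VN (K + 3)}
    (hv : gv G (nl e a (w, t)) v = 0) (hva : v a = 0) :
    fderiv ℂ φ (nl e a (w, t)).2 v = 0 := by
  obtain ⟨b, d, rfl⟩ := span_nl h he hq ha hv hva
  have hL := isL_nl he hq ha
  rw [map_add, map_smul, map_smul, tang hL.an hφ h0, tang hL.an hφ h0]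
  simp

end Vale.Agent.P298.H98.R7
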