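import Vale.Agent.P298.H98.R7a

/-!
# P298, S1-GEO-R7: the affine part of the cyclic cover
-/

open scoped Manifold ContDiff ENNReal Topology
open MeasureTheory Set Filter
open Vale.Agent.P298 Vale.Agent.P298.H379 Vale.Agent.P272.K Vale.Agent.P272.K.INT
open Vale.Agent.P298.H39 Vale.Agent.P298.H863

noncomputable section

namespace Vale.Agent.P298.H98.R7

/-- the point with affine coordinates `x, y` -/
def vec (x : Fin 3 → ℂ) (y : ℂ) : VN (2 + 3) := (![1, x 0, x 1, x 2, y] : Fin 5 → ℂ)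

/-- the tangent vector with affine coordinates `u, η` -/
def vec0 (u : Fin 3 → ℂ) (η : ℂ) : VN (2 + 3) := (![0, u 0, u 1, u 2, η] : Fin 5 → ℂ)

/-- the coordinates `x₁, x₂, x₃` -/
def xc (z : VN (2 + 3)) : Fin 3 → ℂ := ![z 1, z 2, z 3]

lemma vec_zero (x : Fin 3 → ℂ) (y : ℂ) : vec x y 0 = 1 := rfl
lemma vec_four (x : Fin 3 → ℂ) (y : ℂ) : vec x y 4 = y := rfl
lemma vec0_zero (x : Fin 3 → ℂ) (y : ℂ) : vec0 x y 0 = 0 := rfl
lemma vec0_four (x : Fin 3 → ℂ) (y : ℂ) : vec0 x y 4 = y := rfl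

lemma xc_vec (x : Fin 3 → ℂ) (y : ℂ) : xc (vec x y) = x := by
  funext i
  fin_cases i <;> rfl

lemma xc_vec0 (x : Fin 3 → ℂ) (y : ℂ) : xc (vec0 x y) = x := by
  funext i
  fin_cases i <;> rfl

lemma vec_xc {z : VN (2 + 3)} (hz : z 0 = 1) : vec (xc z) (z 4) = z := by
  funext i
  fin_cases i
  · exact hz.symm
  · rfl
  · rfl
  · rfl
  · rfl

lemma vec_ne_zero (x : Fin 3 → ℂ) (y : ℂ) : vec x y ≠ 0 := by
  intro h
  have := congrFun h 0
  rw [vec_zero] at this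
  exact one_ne_zero this

lemma vec_line (x u : Fin 3 → ℂ) (y η τ : ℂ) :
    vec (x + τ • u) (y + τ * η) = vec x y + τ • vec0 u η := by
  funext i
  fin_cases i <;> simp [vec, vec0]

/-- `xc` as a linear map -/
def xcL : VN (2 + 3) →L[ℂ] (Fin 3 → ℂ) :=
  ContinuousLinearMap.pi ![ContinuousLinearMap.proj (R := ℂ) (φ := fun _ : Fin (2 + 3) => ℂ) 1,
    ContinuousLinearMap.proj (R := ℂ) (φ := fun _ : Fin (2 + 3) => ℂ) 2,
    ContinuousLinearMap.proj (R := ℂ) (φ := fun _ : Fin (2 + 3) => ℂ) 3]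

lemma xcL_apply (z : VN (2 + 3)) : xcL z = xc z := by
  funext i
  fin_cases i <;> rfl

lemma continuous_xc : Continuous xc := by
  have : xc = fun z => xcL z := funext fun z => (xcL_apply z).symm
  rw [this]
  exact xcL.continuous

variable {Ω : Set ℂ} {G : ℂ × VN (2 + 3) → (Fin 2 → ℂ)} {dg : Fin 2 → ℕ} {t s : ℂ}
  {f h : (Fin 3 → ℂ) → ℂ} {M : ℕ}

/-- the fibre over `t` is the cyclic cover `Y^M = h` of the closure of the surface `f = s` -/
structure IsCov (G : ℂ × VN (2 + 3) → (Fin 2 → ℂ)) (t : ℂ) (f h : (Fin 3 → ℂ) → ℂ) (s : ℂ)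
    (M : ℕ) : Prop where
  cf : ContDiff ℂ ω f
  ch : ContDiff ℂ ω h
  aff0 : ∀ x y, G (t, vec x y) 0 = f x - s
  aff1 : ∀ x y, G (t, vec x y) 1 = y ^ M - h x
  inf : ∀ z : VN (2 + 3), z ≠ 0 → G (t, z) = 0 → z 0 = 0 → z 4 ≠ 0 →
    ∃ v, gv G (t, z) v = 0 ∧ v 0 ≠ 0
  br : ∀ z : VN (2 + 3), z ≠ 0 → G (t, z) = 0 → z 4 = 0 → gv G (t, z) (Pi.single 4 1) = 0

lemma IsCov.df (hC : IsCov G t f h s M) : Differentiable ℂ f := hC.cf.differentiable (by simp)

lemma IsCov.dh (hC : IsCov G t f h s M) : Differentiable ℂ h := hC.ch.differentiable (by simp)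

lemma contDiff_pd {φ : (Fin 3 → ℂ) → ℂ} (hφ : ContDiff ℂ ω φ) (i : Fin 3) :
    ContDiff ℂ ω (pd i φ) := by
  have h2 : ContDiff ℂ ω (fderiv ℂ φ) := hφ.fderiv_right (by simp)
  exact h2.clm_apply contDiff_const

lemma hasDerivAt_line (hG : CIF Ω G dg) (ht : t ∈ Ω) (z v : VN (2 + 3)) :
    HasDerivAt (fun τ : ℂ => G (t, z + τ • v)) (gv G (t, z) v) 0 := by
  have h1 : HasDerivAt (fun τ : ℂ => ((t, z + τ • v) : ℂ × VN (2 + 3))) (0, v) 0 := by
    have h2 : HasDerivAt (fun τ : ℂ => z + τ • v) v 0 := by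
      simpa using ((hasDerivAt_id (0 : ℂ)).smul_const v).const_add z
    exact (hasDerivAt_const (0 : ℂ) t).prodMk h2
  have h3 : HasFDerivAt G (fderiv ℂ G (t, z)) ((fun τ : ℂ => ((t, z + τ • v) : ℂ × VN (2 + 3))) 0) := by
    simpa using (hG.an t ht z).differentiableAt.hasFDerivAt
  exact h3.comp_hasDerivAt (0 : ℂ) h1

lemma hasDerivAt_dir {φ : (Fin 3 → ℂ) → ℂ} (hφ : Differentiable ℂ φ) (x u : Fin 3 → ℂ) :
    HasDerivAt (fun τ : ℂ => φ (x + τ • u)) (fderiv ℂ φ x u) 0 := by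
  have h2 : HasDerivAt (fun τ : ℂ => x + τ • u) u 0 := by
    simpa using ((hasDerivAt_id (0 : ℂ)).smul_const u).const_add x
  have h3 : HasFDerivAt φ (fderiv ℂ φ x) ((fun τ : ℂ => x + τ • u) 0) := by
    simpa using (hφ x).hasFDerivAt
  exact h3.comp_hasDerivAt (0 : ℂ) h2

lemma gv_vec0_zero (hG : CIF Ω G dg) (ht : t ∈ Ω) (hC : IsCov G t f h s M) (x u : Fin 3 → ℂ)
    (y η : ℂ) : gv G (t, vec x y) (vec0 u η) 0 = fderiv ℂ f x u := by
  have h1 := hasDerivAt_pi.1 (hasDerivAt_line hG ht (vec x y) (vec0 u η)) 0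
  have h2 : (fun τ : ℂ => G (t, vec x y + τ • vec0 u η) 0) = fun τ => f (x + τ • u) - s := by
    funext τ
    rw [← vec_line, hC.aff0]
  rw [h2] at h1
  exact h1.unique ((hasDerivAt_dir hC.df x u).sub_const s)

lemma gv_vec0_one (hG : CIF Ω G dg) (ht : t ∈ Ω) (hC : IsCov G t f h s M) (x u : Fin 3 → ℂ)
    (y η : ℂ) : gv G (t, vec x y) (vec0 u η) 1 = M * y ^ (M - 1) * η - fderiv ℂ h x u := by
  have h1 := hasDerivAt_pi.1 (hasDerivAt_line hG ht (vec x y) (vec0 u η)) 1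
  have h2 : (fun τ : ℂ => G (t, vec x y + τ • vec0 u η) 1) =
      fun τ => (y + τ * η) ^ M - h (x + τ • u) := by
    funext τ
    rw [← vec_line, hC.aff1]
  rw [h2] at h1
  have h3 : HasDerivAt (fun τ : ℂ => (y + τ * η) ^ M) (M * y ^ (M - 1) * η) 0 := by
    have h4 : HasDerivAt (fun τ : ℂ => y + τ * η) η 0 := by
      simpa using ((hasDerivAt_id (0 : ℂ)).mul_const η).const_add y
    simpa using h4.fun_pow M
  exact h1.unique (h3.sub (hasDerivAt_dir hC.dh x u))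

/-! ### polynomials in the last variable -/

/-- `φ` is a polynomial of degree `≤ k` in the last variable with leading coefficient `c` -/
def PT (φ : (Fin 3 → ℂ) → ℂ) (k : ℕ) (c : ℂ) : Prop :=
  ∃ p : (Fin 3 → ℂ) → Polynomial ℂ, ∀ x, (∀ τ, φ (Function.update x 2 τ) = (p x).eval τ) ∧
    (p x).natDegree ≤ k ∧ (p x).coeff k = c

lemma PT.pd {φ : (Fin 3 → ℂ) → ℂ} {k : ℕ} {c : ℂ} (hφ : Differentiable ℂ φ)
    (hp : PT φ (k + 1) c) : PT (pd 2 φ) k (c * (k + 1)) := by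
  obtain ⟨p, hp⟩ := hp
  refine ⟨fun x => Polynomial.derivative (p x), fun x => ⟨fun τ => ?_, ?_, ?_⟩⟩
  · have h1 : HasDerivAt (fun τ : ℂ => φ (Function.update x 2 τ))
        (fderiv ℂ φ (Function.update x 2 τ) (Pi.single 2 1)) τ :=
      (hφ (Function.update x 2 τ)).hasFDerivAt.comp_hasDerivAt τ (hasDerivAt_update x 2 τ)
    have h2 : (fun τ : ℂ => φ (Function.update x 2 τ)) = fun τ => (p x).eval τ := by
      funext τ
      exact (hp x).1 τ
    rw [h2] at h1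
    exact h1.unique ((p x).hasDerivAt τ)
  · have h1 := (hp x).2.1
    refine (Polynomial.natDegree_derivative_le (p x)).trans ?_
    omega
  · show (Polynomial.derivative (p x)).coeff k = _
    rw [Polynomial.coeff_derivative, (hp x).2.2]

lemma PT.const {φ : (Fin 3 → ℂ) → ℂ} {c : ℂ} (hp : PT φ 0 c) (x : Fin 3 → ℂ) : φ x = c := by
  obtain ⟨p, hp⟩ := hp
  have h1 := (hp x).1 (x 2)
  rw [Function.update_eq_self] at h1
  rw [h1, Polynomial.eq_C_of_natDegree_le_zero (hp x).2.1, Polynomial.eval_C, (hp x).2.2]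

variable {e : PC (TZ Ω G)} {w : Cm 2}

/-- the `x₃`-derivative of the equation does not vanish on an open part of the surface -/
lemma pd_frequently (hG : CIF Ω G dg) (ht : t ∈ Ω) (hC : IsCov G t f h s M) (hM : 0 < M)
    (he : IsPC e)
    (hq : (w, t) ∈ e.target) (ha : e.symm (w, t) ∈ Ua Ω G 0) (ha4 : e.symm (w, t) ∈ Ua Ω G 4)
    {d : ℕ} {c : ℂ} (hd : 0 < d) (hc : c ≠ 0) (hp : PT f d c) :
    ∃ᶠ w' in 𝓝 w, pd 2 f (xc (nl e 0 (w', t)).2) ≠ 0 := by
  by_contra hcon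
  rw [Filter.not_frequently] at hcon
  simp only [not_not] at hcon
  have hι : Continuous fun w' : Cm 2 => ((w', t) : Cm 2 × ℂ) := by fun_prop
  have hloc : ∀ᶠ w' in 𝓝 w, (w', t) ∈ e.target ∧ e.symm (w', t) ∈ Ua Ω G 0 ∩ Ua Ω G 4 := by
    have h1 : ∀ᶠ q in 𝓝 ((w, t) : Cm 2 × ℂ), q ∈ e.target ∧ e.symm q ∈ Ua Ω G 0 ∩ Ua Ω G 4 := by
      filter_upwards [e.open_target.mem_nhds hq, (e.continuousAt_symm hq).eventually
        (((isOpen_Ua 0).inter (isOpen_Ua 4)).mem_nhds ⟨ha, ha4⟩)] with q h2 h3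
      exact ⟨h2, h3⟩
    exact hι.continuousAt.eventually h1
  have key : ∀ (k : ℕ) (φ : (Fin 3 → ℂ) → ℂ) (c : ℂ), ContDiff ℂ ω φ → PT φ k c → c ≠ 0 →
      ¬ ∀ᶠ w' in 𝓝 w, φ (xc (nl e 0 (w', t)).2) = 0 := by
    intro k
    induction k with
    | zero =>
      intro φ c _ hp hc h0
      have := h0.self_of_nhds
      rw [hp.const] at this
      exact hc this
    | succ k ih =>
      intro φ c hφ hp hc h0
      have hφ' : Differentiable ℂ φ := hφ.differentiable (by simp)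
      refine ih (pd 2 φ) (c * (k + 1)) (contDiff_pd hφ 2) (PT.pd hφ' hp)
        (mul_ne_zero hc (Nat.cast_add_one_ne_zero k)) ?_
      · filter_upwards [h0.eventually_nhds, hcon, hloc] with w' h1 h2 h3
        obtain ⟨h4, h5, h6⟩ := h3
        set Lw := nl e 0 (w', t) with hLw
        have hr : Rep Lw (e.symm (w', t)) := rep_sg h5
        have hL1 : Lw.1 = t := by
          have h7 := he.par _ (e.map_target h4)
          rw [e.right_inv h4] at h7
          rw [← hr.2.1, ← h7]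
        have hL0 : Lw.2 0 = 1 := sg_self h5
        have hL4 : Lw.2 4 ≠ 0 := hr.mem_Ua.1 h6
        have hLv : Lw = (t, vec (xc Lw.2) (Lw.2 4)) := by
          rw [vec_xc hL0, ← hL1]
        set ν : ℂ := fderiv ℂ h (xc Lw.2) (Pi.single 2 1) / (M * (Lw.2 4) ^ (M - 1)) with hν
        have hM0 : ((M : ℂ) * (Lw.2 4) ^ (M - 1)) ≠ 0 :=
          mul_ne_zero (by exact_mod_cast hM.ne') (pow_ne_zero _ hL4)
        have hv : gv G Lw (vec0 (Pi.single 2 1) ν) = 0 := by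
          funext i
          rw [hLv]
          fin_cases i
          · show gv G (t, vec (xc Lw.2) (Lw.2 4)) (vec0 (Pi.single 2 1) ν) 0 = 0
            rw [gv_vec0_zero hG ht hC]
            exact h2
          · show gv G (t, vec (xc Lw.2) (Lw.2 4)) (vec0 (Pi.single 2 1) ν) 1 = 0
            rw [gv_vec0_one hG ht hC, hν, mul_div_cancel₀ _ hM0, sub_self]
        have hφd : HasFDerivAt (fun z => φ (xc z)) ((fderiv ℂ φ (xc Lw.2)).comp xcL) Lw.2 := by
          have h7 : (fun z => φ (xc z)) = fun z => φ (xcL z) := by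
            funext z
            rw [xcL_apply]
          rw [h7, ← xcL_apply]
          exact (hφ' _).hasFDerivAt.comp Lw.2 xcL.hasFDerivAt
        have h7 := tang_nl (φ := fun z => φ (xc z)) hG he h4 h5 hφd.differentiableAt h1 hv
          (vec0_zero _ _)
        rw [← hLw, hφd.fderiv, ContinuousLinearMap.comp_apply, xcL_apply, xc_vec0] at h7
        exact h7
  obtain ⟨k, rfl⟩ : ∃ k, d = k + 1 := ⟨d - 1, by omega⟩
  exact key k (pd 2 f) (c * (k + 1)) (contDiff_pd hC.cf 2) (PT.pd hC.df hp)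
    (mul_ne_zero hc (Nat.cast_add_one_ne_zero k)) hcon

end Vale.Agent.P298.H98.R7
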