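import Vale.Agent.P298.H98.R7b
import Vale.Agent.P298.H39.Den

/-!
# P298, S1-GEO-R7: the integral over the cyclic cover
-/

open scoped Manifold ContDiff ENNReal Topology Matrix
open MeasureTheory Set Filter
open Vale.Agent.P298 Vale.Agent.P298.H379 Vale.Agent.P272.K Vale.Agent.P272.K.INT
open Vale.Agent.P298.H39 Vale.Agent.P298.H863

noncomputable section

namespace Vale.Agent.P298.H98.R7

/-! ### the pairing of forms of type `(2,0)` -/

/-- `α ∧ conj β` for forms of type `(2,0)` -/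
lemma prh_ty20 {α β : BF} (hα : Ty20 α) (hβ : Ty20 β) (aα : ∀ u v, α u v = -α v u)
    (aβ : ∀ u v, β u v = -β v u) :
    prh α β = 4 * (α (Pi.single 0 1) (Pi.single 1 1) *
      (starRingEnd ℂ) (β (Pi.single 0 1) (Pi.single 1 1))) := by
  have i1 : (bs 1 : Cm 2) = Complex.I • bs 0 := by
    show (Pi.single 0 Complex.I : Cm 2) = Complex.I • Pi.single 0 1
    rw [← Pi.single_smul]; simp
  have i2 : (bs 3 : Cm 2) = Complex.I • bs 2 := by
    show (Pi.single 1 Complex.I : Cm 2) = Complex.I • Pi.single 1 1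
    rw [← Pi.single_smul]; simp
  have z0 : ∀ (γ : BF), (∀ u v, γ u v = -γ v u) → ∀ u, γ u u = 0 := fun γ h u => by
    have := h u u
    linear_combination this / 2
  have e1 : ∀ (γ : BF) (u v : Cm 2), Ty20 γ → γ (Complex.I • u) v = Complex.I * γ u v :=
    fun γ u v h => (h u v).1
  have e2 : ∀ (γ : BF) (u v : Cm 2), Ty20 γ → γ u (Complex.I • v) = Complex.I * γ u v :=
    fun γ u v h => (h u v).2
  have b0 : (bs 0 : Cm 2) = Pi.single 0 1 := rfl
  have b2 : (bs 2 : Cm 2) = Pi.single 1 1 := rfl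
  rw [prh, prg]
  simp only [cjB_apply, i1, i2, e1 _ _ _ hα, e2 _ _ _ hα, e1 _ _ _ hβ, e2 _ _ _ hβ,
    z0 α aα, z0 β aβ, map_mul, Complex.conj_I, b0, b2]
  linear_combination (-4 * (α (Pi.single 0 1) (Pi.single 1 1) *
      (starRingEnd ℂ) (β (Pi.single 0 1) (Pi.single 1 1)))) * Complex.I_mul_I

/-! ### determinants -/

/-- the linear forms `z₀, z₁, z₂` -/
def c3 : VN (2 + 3) →L[ℂ] (Fin 3 → ℂ) :=
  ContinuousLinearMap.pi ![ContinuousLinearMap.proj (R := ℂ) (φ := fun _ : Fin (2 + 3) => ℂ) 0,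
    ContinuousLinearMap.proj (R := ℂ) (φ := fun _ : Fin (2 + 3) => ℂ) 1,
    ContinuousLinearMap.proj (R := ℂ) (φ := fun _ : Fin (2 + 3) => ℂ) 2]

lemma c3_zero (z : VN (2 + 3)) : c3 z 0 = z 0 := rfl
lemma c3_one (z : VN (2 + 3)) : c3 z 1 = z 1 := rfl
lemma c3_two (z : VN (2 + 3)) : c3 z 2 = z 2 := rfl

lemma cdet_c3 (g : VN (2 + 3) →L[ℂ] (Fin 2 → ℂ)) :
    cdet c3 g = g (vec0 (Pi.single 2 1) 0) 0 * g (vec0 0 1) 1 -
      g (vec0 0 1) 0 * g (vec0 (Pi.single 2 1) 0) 1 := by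
  have h1 : colM c3 g = Matrix.fromBlocks 1 (Matrix.of fun j i => g (Pi.single (sgm 2 (Sum.inl j)) 1) i)
      0 (Matrix.of fun j i => g (Pi.single (sgm 2 (Sum.inr j)) 1) i) := by
    ext j i
    rcases j with j | j <;> rcases i with i | i
    · fin_cases j <;> fin_cases i <;> rfl
    · rfl
    · fin_cases j <;> fin_cases i <;> rfl
    · rfl
  have h2 : (Pi.single (sgm 2 (Sum.inr 0)) 1 : VN (2 + 3)) = vec0 (Pi.single 2 1) 0 := by
    funext i
    fin_cases i <;> rfl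
  have h3 : (Pi.single (sgm 2 (Sum.inr 1)) 1 : VN (2 + 3)) = vec0 0 1 := by
    funext i
    fin_cases i <;> rfl
  rw [cdet, h1, Matrix.det_fromBlocks_zero₂₁, Matrix.det_one, one_mul, Matrix.det_fin_two]
  simp only [Matrix.of_apply, h2, h3]
  ring

variable {Ω : Set ℂ} {G : ℂ × VN (2 + 3) → (Fin 2 → ℂ)} {dg : Fin 2 → ℕ} {t s : ℂ}
  {f h : (Fin 3 → ℂ) → ℂ} {M : ℕ}

lemma cdet_aff (hG : CIF Ω G dg) (ht : t ∈ Ω) (hC : IsCov G t f h s M) (x : Fin 3 → ℂ) (y : ℂ) :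
    cdet c3 (gv G (t, vec x y)) = pd 2 f x * (M * y ^ (M - 1)) := by
  rw [cdet_c3, gv_vec0_zero hG ht hC, gv_vec0_zero hG ht hC, gv_vec0_one hG ht hC,
    gv_vec0_one hG ht hC, map_zero, map_zero]
  simp only [pd]
  ring

/-! ### the good set -/

/-- affine coordinates -/
def ax (z : TZ Ω G) : Fin 3 → ℂ := xc (sg 0 z).2

/-- the coordinate `Y` -/
def ay (z : TZ Ω G) : ℂ := (sg 0 z).2 4

/-- the good set -/
def GoodZ (Ω : Set ℂ) (G : ℂ × VN (2 + 3) → (Fin 2 → ℂ)) (f : (Fin 3 → ℂ) → ℂ) : Set (TZ Ω G) :=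
  {z | z ∈ Ua Ω G 0 ∧ ay z ≠ 0 ∧ pd 2 f (ax z) ≠ 0}

lemma sg_eq_vec {z : TZ Ω G} (hz : z ∈ Ua Ω G 0) : sg 0 z = (z.t, vec (ax z) (ay z)) := by
  refine Prod.ext rfl ?_
  exact (vec_xc (sg_self hz)).symm

lemma isOpen_GoodZ (hf : ContDiff ℂ ω f) : IsOpen (GoodZ Ω G f) := by
  have h1 : ContinuousOn (fun z : TZ Ω G => (ay z, pd 2 f (ax z))) (Ua Ω G 0) := by
    intro z hz
    have h2 := sg_continuousAt hz
    have h3 : ContinuousAt (fun z : TZ Ω G => (sg 0 z).2) z := continuousAt_snd.comp h2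
    have h4 : ContinuousAt (fun z : TZ Ω G => ay z) z :=
      (continuous_apply (4 : Fin (2 + 3))).continuousAt.comp h3
    have h5 : ContinuousAt (fun z : TZ Ω G => pd 2 f (ax z)) z :=
      ((contDiff_pd hf 2).continuous.comp continuous_xc).continuousAt.comp h3
    exact (h4.prodMk h5).continuousWithinAt
  have h2 : GoodZ Ω G f = Ua Ω G 0 ∩ (fun z : TZ Ω G => (ay z, pd 2 f (ax z))) ⁻¹'
      {p : ℂ × ℂ | p.1 ≠ 0 ∧ p.2 ≠ 0} := rfl
  rw [h2]
  refine h1.isOpen_inter_preimage (isOpen_Ua 0) ?_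
  exact (isOpen_ne_fun continuous_fst continuous_const).inter
    (isOpen_ne_fun continuous_snd continuous_const)

/-- the good set is the affine cyclic cover over `∂₃ f ≠ 0`, `h ≠ 0` -/
lemma image_good (hG : CIF Ω G dg) (ht : t ∈ Ω) (hC : IsCov G t f h s M) (p : Fin 3 → ℂ) (y : ℂ) :
    (f p = s ∧ pd 2 f p ≠ 0 ∧ y ≠ 0 ∧ y ^ M = h p) ↔
      ∃ z : (fam hG rfl).Fib t, z.val ∈ GoodZ Ω G f ∧ ax z.val = p ∧ ay z.val = y := by
  constructor
  · rintro ⟨h1, h2, h3, h4⟩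
    have hc : ((t, vec p y) : ℂ × VN (2 + 3)) ∈ Cone Ω G := by
      refine ⟨ht, vec_ne_zero p y, ?_⟩
      funext i
      fin_cases i
      · show G (t, vec p y) 0 = 0
        rw [hC.aff0, h1, sub_self]
      · show G (t, vec p y) 1 = 0
        rw [hC.aff1, h4, sub_self]
    obtain ⟨z, hz⟩ := exists_of_cone hc
    have hz0 : z ∈ Ua Ω G 0 := by
      rw [hz.mem_Ua]
      exact one_ne_zero
    have hsg : sg 0 z = (t, vec p y) := by
      rw [hz.sg_eq (by exact one_ne_zero)]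
      show (t, (vec p y 0)⁻¹ • vec p y) = _
      rw [vec_zero, inv_one, one_smul]
    have hax : ax z = p := by rw [ax, hsg, xc_vec]
    have hay : ay z = y := by rw [ay, hsg]; rfl
    exact ⟨⟨z, hz.2.1⟩, ⟨hz0, by rw [hay]; exact h3, by rw [hax]; exact h2⟩, hax, hay⟩
  · rintro ⟨z, ⟨h0, h1, h2⟩, rfl, rfl⟩
    have h3 := ((rep_sg h0).mem_cone hG).2.2
    rw [sg_eq_vec h0] at h3
    have h4 : z.val.t = t := z.prop
    rw [h4] at h3
    have h5 := congrFun h3 0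
    have h6 := congrFun h3 1
    rw [hC.aff0] at h5
    rw [hC.aff1] at h6
    exact ⟨sub_eq_zero.1 h5, h2, h1, sub_eq_zero.1 h6⟩

lemma inj_good (hG : CIF Ω G dg) : InjOn (fun z : (fam hG rfl).Fib t => (ax z.val, ay z.val))
    {z | z.val ∈ GoodZ Ω G f} := by
  intro z hz z' hz' heq
  simp only [Prod.mk.injEq] at heq
  have h1 : sg 0 z.val = sg 0 z'.val := by
    rw [sg_eq_vec hz.1, sg_eq_vec hz'.1, heq.1, heq.2]
    have h2 : z.val.t = t := z.prop
    have h3 : z'.val.t = t := z'.prop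
    rw [h2, h3]
  have h2 := rep_sg hz.1
  rw [h1] at h2
  exact Fam.Fib.ext (h2.inj (rep_sg hz'.1))

/-- the bad set is a null set in every chart of the fibre -/
lemma null_bad (hG : CIF Ω G dg) (ht : t ∈ Ω) (hC : IsCov G t f h s M) (hM : 0 < M)
    {d : ℕ} {c : ℂ} (hd : 0 < d) (hc : c ≠ 0) (hp : PT f d c) {f' : Chart 2 ((fam hG rfl).Fib t)}
    (hf' : f' ∈ atlas (Cm 2) ((fam hG rfl).Fib t)) :
    volume (f'.target \ f'.symm ⁻¹' {z | z.val ∈ GoodZ Ω G f}) = 0 := by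
  obtain ⟨e, he⟩ := mem_atlas_fib.1 hf'
  have heA : IsPC e := he.mem
  have hι : Continuous fun w' : Cm 2 => ((w', t) : Cm 2 × ℂ) := by fun_prop
  have hopen : IsOpen {w : Cm 2 | (w, t) ∈ e.target} := e.open_target.preimage hι
  -- neighbourhoods
  have hnb : ∀ {w : Cm 2} {V : Set (TZ Ω G)}, (w, t) ∈ e.target → IsOpen V → e.symm (w, t) ∈ V →
      ∀ᶠ w' in 𝓝 w, (w', t) ∈ e.target ∧ e.symm (w', t) ∈ V := by
    intro w V hw hV hwV
    have h1 : ∀ᶠ q in 𝓝 ((w, t) : Cm 2 × ℂ), q ∈ e.target ∧ e.symm q ∈ V := by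
      filter_upwards [e.open_target.mem_nhds hw, (e.continuousAt_symm hw).eventually
        (hV.mem_nhds hwV)] with q h2 h3
      exact ⟨h2, h3⟩
    exact hι.continuousAt.eventually h1
  -- analyticity of the coordinates
  have han : ∀ {w : Cm 2} {a : Fin (2 + 3)}, (w, t) ∈ e.target → e.symm (w, t) ∈ Ua Ω G a →
      AnalyticAt ℂ (fun w' : Cm 2 => (nl e a (w', t)).2) w := by
    intro w a hw ha
    have h1 := (isL_nl heA hw ha).an
    have h2 : AnalyticAt ℂ (fun w' : Cm 2 => ((w', t) : Cm 2 × ℂ)) w :=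
      analyticAt_id.prod analyticAt_const
    exact analyticAt_snd.comp (AnalyticAt.comp (g := nl e a) (f := fun w' : Cm 2 => (w', t)) h1 h2)
  have hcoord : ∀ {w : Cm 2} {a : Fin (2 + 3)} (i : Fin (2 + 3)), (w, t) ∈ e.target →
      e.symm (w, t) ∈ Ua Ω G a → AnalyticAt ℂ (fun w' : Cm 2 => (nl e a (w', t)).2 i) w := by
    intro w a i hw ha
    exact AnalyticAt.comp (g := fun z : VN (2 + 3) => z i)
      (f := fun w' : Cm 2 => (nl e a (w', t)).2)
      ((ContinuousLinearMap.proj (R := ℂ) (φ := fun _ : Fin (2 + 3) => ℂ) i).analyticAt _)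
      (han hw ha)
  have hfst : ∀ {w : Cm 2} {a : Fin (2 + 3)}, (w, t) ∈ e.target → e.symm (w, t) ∈ Ua Ω G a →
      nl e a (w, t) = (t, (nl e a (w, t)).2) := by
    intro w a hw ha
    refine Prod.ext ?_ rfl
    have h7 := heA.par _ (e.map_target hw)
    rw [e.right_inv hw] at h7
    exact h7.symm
  -- the branch curve
  have n1 : volume {w : Cm 2 | (w, t) ∈ e.target ∧ e.symm (w, t) ∉ Ua Ω G 4} = 0 := by
    refine null_of_local fun w hw => ?_
    obtain ⟨a, ha⟩ := exists_mem_Ua (e.symm (w, t))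
    have hL := isL_nl heA hw.1 ha
    have hw4 : (nl e a (w, t)).2 4 = 0 := by
      by_contra h0
      exact hw.2 ((rep_sg ha).mem_Ua.2 h0)
    refine ⟨fun w' => (nl e a (w', t)).2 4, hcoord 4 hw.1 ha, ?_, ?_⟩
    · intro hcon
      simp only [not_not] at hcon
      have hcone := hL.mem_cone hG
      have h1 : gv G (nl e a (w, t)) (Pi.single 4 1) = 0 := by
        rw [hfst hw.1 ha] at hcone ⊢
        exact hC.br _ hcone.2.1 hcone.2.2 hw4
      have h2 := coord_zero hG heA hw.1 hL hcon h1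
      simp at h2
    · filter_upwards [hnb hw.1 (isOpen_Ua a) ha] with w' h1 h2
      by_contra h0
      exact h2.2 ((rep_sg h1.2).mem_Ua.2 h0)
  -- the points at infinity
  have n2 : volume {w : Cm 2 | (w, t) ∈ e.target ∧ e.symm (w, t) ∈ Ua Ω G 4 ∧
      e.symm (w, t) ∉ Ua Ω G 0} = 0 := by
    refine null_of_local fun w hw => ?_
    have ha := hw.2.1
    have hL := isL_nl heA hw.1 ha
    have hw0 : (nl e 4 (w, t)).2 0 = 0 := by
      by_contra h0
      exact hw.2.2 ((rep_sg ha).mem_Ua.2 h0)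
    have hw4 : (nl e 4 (w, t)).2 4 ≠ 0 := (rep_sg ha).mem_Ua.1 ha
    refine ⟨fun w' => (nl e 4 (w', t)).2 0, hcoord 0 hw.1 ha, ?_, ?_⟩
    · intro hcon
      simp only [not_not] at hcon
      have hcone := hL.mem_cone hG
      obtain ⟨v, h1, h2⟩ : ∃ v, gv G (nl e 4 (w, t)) v = 0 ∧ v 0 ≠ 0 := by
        rw [hfst hw.1 ha] at hcone ⊢
        exact hC.inf _ hcone.2.1 hcone.2.2 hw0 hw4
      exact h2 (coord_zero hG heA hw.1 hL hcon h1)
    · filter_upwards [hnb hw.1 (isOpen_Ua 4) ha] with w' h1 h2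
      by_contra h0
      exact h2.2.2 ((rep_sg h1.2).mem_Ua.2 h0)
  -- the critical points of the projection
  have n3 : volume {w : Cm 2 | (w, t) ∈ e.target ∧ e.symm (w, t) ∈ Ua Ω G 4 ∧
      e.symm (w, t) ∈ Ua Ω G 0 ∧ pd 2 f (ax (e.symm (w, t))) = 0} = 0 := by
    refine null_of_local fun w hw => ?_
    refine ⟨fun w' => pd 2 f (xc (nl e 0 (w', t)).2), ?_,
      pd_frequently hG ht hC hM heA hw.1 hw.2.2.1 hw.2.1 hd hc hp, ?_⟩
    · have h1 : AnalyticAt ℂ (fun z => pd 2 f (xcL z)) (nl e 0 (w, t)).2 := by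
        have h2 : ContDiff ℂ ω (fun z => pd 2 f (xcL z)) :=
          (contDiff_pd hC.cf 2).comp xcL.contDiff
        exact h2.contDiffAt.analyticAt
      have h3 : (fun z => pd 2 f (xcL z)) = fun z => pd 2 f (xc z) := by
        funext z
        rw [xcL_apply]
      rw [h3] at h1
      exact AnalyticAt.comp (g := fun z => pd 2 f (xc z))
        (f := fun w' : Cm 2 => (nl e 0 (w', t)).2) h1 (han hw.1 hw.2.2.1)
    · exact Eventually.of_forall fun w' h1 => h1.2.2.2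
  refine measure_mono_null ?_ (measure_union_null (measure_union_null n1 n2) n3)
  rintro w ⟨hw, hbad⟩
  have h1 := he.mem_target hw
  have h2 := he.symm_val hw
  have hbad' : ¬ (e.symm (w, t) ∈ GoodZ Ω G f) := by
    rw [← h2]
    exact hbad
  by_cases h4 : e.symm (w, t) ∈ Ua Ω G 4
  · by_cases h0 : e.symm (w, t) ∈ Ua Ω G 0
    · refine Or.inr ⟨h1, h4, h0, ?_⟩
      by_contra h5
      refine hbad' ⟨h0, ?_, h5⟩
      exact (rep_sg h0).mem_Ua.1 h4
    · exact Or.inl (Or.inr ⟨h1, h4, h0⟩)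
  · exact Or.inl (Or.inl ⟨h1, h4⟩)

end Vale.Agent.P298.H98.R7
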