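import Vale.Agent.P298.H98.R7c
import Vale.Agent.P298.H863.C7

/-!
# P298, S1-GEO-R7: the square norm of `P w_Z` on a fibre of the cyclic cover
-/

open scoped Manifold ContDiff ENNReal Topology Matrix
open MeasureTheory Set Filter
open Vale.Agent.P298 Vale.Agent.P298.H379 Vale.Agent.P272.K Vale.Agent.P272.K.INT
open Vale.Agent.P298.H39 Vale.Agent.P298.H863

noncomputable section

namespace Vale.Agent.P298.H98.R7

section gen
variable {K : ℕ} {Ω : Set ℂ} {G : ℂ × VN (K + 3) → (Fin K → ℂ)} {e : PC (TZ Ω G)} {q : Cm 2 × ℂ}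

/-- the derivatives of the normalized lift are tangent to the affine chart -/
lemma dl_nl_self (he : IsPC e) (hq : q ∈ e.target) {a : Fin (K + 3)}
    (ha : e.symm q ∈ Ua Ω G a) (j : Fin 2) : dl (nl e a) q j a = 0 := by
  have hL := isL_nl he hq ha
  have h1 : HasFDerivAt (fun q' => (nl e a q').2 a)
      (((ContinuousLinearMap.proj (R := ℂ) (φ := fun _ : Fin (K + 3) => ℂ) a).comp
        (ContinuousLinearMap.snd ℂ ℂ (VN (K + 3)))).comp (fderiv ℂ (nl e a) q)) q :=
    HasFDerivAt.comp (g := fun y : ℂ × VN (K + 3) => y.2 a) q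
      ((ContinuousLinearMap.proj (R := ℂ) (φ := fun _ : Fin (K + 3) => ℂ) a).comp
        (ContinuousLinearMap.snd ℂ ℂ (VN (K + 3)))).hasFDerivAt
      hL.an.differentiableAt.hasFDerivAt
  have h2 : (fun q' => (nl e a q').2 a) =ᶠ[𝓝 q] fun _ => 1 := by
    filter_upwards [(e.continuousAt_symm hq).eventually ((isOpen_Ua a).mem_nhds ha)] with q' hq'
    exact sg_self hq'
  have h3 := ((hasFDerivAt_const (1 : ℂ) q).congr_of_eventuallyEq h2).unique h1
  exact (congrArg (fun l : Cm 2 × ℂ →L[ℂ] ℂ => l (Pi.single j 1, 0)) h3).symm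

/-- derivatives of the coordinates along the fibre -/
lemma hasFDerivAt_coord {L : Cm 2 × ℂ → ℂ × VN (K + 3)} {w : Cm 2} {t : ℂ}
    (hL : AnalyticAt ℂ L (w, t)) (i : Fin (K + 3)) :
    ∃ l : Cm 2 →L[ℂ] ℂ, HasFDerivAt (fun w' : Cm 2 => (L (w', t)).2 i) l w ∧
      ∀ j, l (Pi.single j 1) = dl L (w, t) j i := by
  refine ⟨(ContinuousLinearMap.proj (R := ℂ) (φ := fun _ : Fin (K + 3) => ℂ) i).comp
    (((ContinuousLinearMap.snd ℂ ℂ (VN (K + 3))).comp (fderiv ℂ L (w, t))).comp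
        (ContinuousLinearMap.inl ℂ (Cm 2) ℂ)), ?_, fun j => rfl⟩
  exact HasFDerivAt.comp (g := fun z : VN (K + 3) => z i) (f := fun w' : Cm 2 => (L (w', t)).2) w
    (ContinuousLinearMap.proj (R := ℂ) (φ := fun _ : Fin (K + 3) => ℂ) i).hasFDerivAt
    (hasFDerivAt_fib hL)

end gen

variable {Ω : Set ℂ} {G : ℂ × VN (2 + 3) → (Fin 2 → ℂ)} {dg : Fin 2 → ℕ} {t s : ℂ}
  {f h : (Fin 3 → ℂ) → ℂ} {M : ℕ} {e : PC (TZ Ω G)}

/-- Jacobian of `(x₁, x₂)` in the chart `e` -/
def jac (e : PC (TZ Ω G)) (q : Cm 2 × ℂ) : ℂ :=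
  dl (nl e 0) q 0 1 * dl (nl e 0) q 1 2 - dl (nl e 0) q 1 1 * dl (nl e 0) q 0 2

lemma pdet_nl (he : IsPC e) {q : Cm 2 × ℂ} (hq : q ∈ e.target) (ha : e.symm q ∈ Ua Ω G 0) :
    pdet c3 (nl e 0 q).2 (dl (nl e 0) q 0) (dl (nl e 0) q 1) = jac e q := by
  have h0 : (nl e 0 q).2 0 = 1 := sg_self ha
  rw [pdet_eq]
  simp only [c3_zero, c3_one, c3_two, h0, dl_nl_self he hq ha, jac]
  ring

/-- the real Jacobian of `(x₁, x₂)` -/
lemma det_ax {hG : CIF Ω G dg} {f' : Chart 2 ((fam hG rfl).Fib t)}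
    (he : IsFC (fam hG rfl) t f' e) {z : (fam hG rfl).Fib t} (hz : z ∈ f'.source)
    (ha : z.val ∈ Ua Ω G 0) :
    ContDiffAt ℂ 1 (fun w => (![ax (f'.symm w).val 0, ax (f'.symm w).val 1] : Cm 2)) (f' z) ∧
    (fderiv ℝ (fun w => (![ax (f'.symm w).val 0, ax (f'.symm w).val 1] : Cm 2)) (f' z)).det =
      ‖jac e (f' z, t)‖ ^ 2 := by
  have heA : IsPC e := he.mem
  have hq : (f' z, t) ∈ e.target := he.mem_target (f'.map_source hz)
  have hzv : e.symm (f' z, t) = z.val := by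
    rw [← he.symm_val (f'.map_source hz), f'.left_inv hz]
  have ha' : e.symm (f' z, t) ∈ Ua Ω G 0 := by rw [hzv]; exact ha
  have hL := (isL_nl heA hq ha').an
  set T' : Cm 2 → Cm 2 := fun w => ![(nl e 0 (w, t)).2 1, (nl e 0 (w, t)).2 2] with hT'
  have hT : (fun w => (![ax (f'.symm w).val 0, ax (f'.symm w).val 1] : Cm 2)) =ᶠ[𝓝 (f' z)] T' := by
    filter_upwards [f'.open_target.mem_nhds (f'.map_source hz)] with w hw
    rw [he.symm_val hw]
    rfl
  have han : ∀ i, AnalyticAt ℂ (fun w' : Cm 2 => (nl e 0 (w', t)).2 i) (f' z) := by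
    intro i
    have h2 : AnalyticAt ℂ (fun w' : Cm 2 => ((w', t) : Cm 2 × ℂ)) (f' z) :=
      analyticAt_id.prod analyticAt_const
    have h3 : AnalyticAt ℂ (fun w' : Cm 2 => (nl e 0 (w', t)).2) (f' z) :=
      analyticAt_snd.comp (AnalyticAt.comp (g := nl e 0) (f := fun w' : Cm 2 => (w', t)) hL h2)
    exact AnalyticAt.comp (g := fun z : VN (2 + 3) => z i)
      (f := fun w' : Cm 2 => (nl e 0 (w', t)).2)
      ((ContinuousLinearMap.proj (R := ℂ) (φ := fun _ : Fin (2 + 3) => ℂ) i).analyticAt _) h3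
  have hcd : ContDiffAt ℂ 1 T' (f' z) := by
    rw [contDiffAt_pi]
    intro i
    fin_cases i
    · exact (han 1).contDiffAt
    · exact (han 2).contDiffAt
  refine ⟨hcd.congr_of_eventuallyEq hT, ?_⟩
  rw [hT.fderiv_eq, det_fderiv_real (hcd.differentiableAt one_ne_zero), Matrix.det_fin_two]
  have hentry : ∀ (p i : Fin 2) (k : Fin (2 + 3)), (∀ w, T' w p = (nl e 0 (w, t)).2 k) →
      dz i (fun w => T' w p) (f' z) = dl (nl e 0) (f' z, t) i k := by
    intro p i k hk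
    obtain ⟨l, hl, hlj⟩ := hasFDerivAt_coord hL k
    have h1 : (fun w => T' w p) = fun w => (nl e 0 (w, t)).2 k := funext hk
    rw [h1, INT.dz_of_holo hl.differentiableAt, hl.fderiv, hlj]
  simp only [Matrix.of_apply]
  rw [hentry 0 0 1 fun _ => rfl, hentry 0 1 1 fun _ => rfl, hentry 1 0 2 fun _ => rfl,
    hentry 1 1 2 fun _ => rfl, jac]

variable {P : ℂ × VN (2 + 3) → ℂ} {N m l : ℕ} {b : ℂ}

/-- the coefficient of `P w_Z` in the affine chart -/
lemma cf_good (hG : CIF Ω G dg) (hC : IsCov G t f h s M) (hM : 0 < M)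
    (hP : HPol Ω P N) (hN : N + (2 + 3) = ∑ k, dg k)
    (hPb : ∀ x y, f x = s → y ^ M = h x → P (t, vec x y) = b * y ^ (M - 1 + l))
    (he : IsPC e) {q : Cm 2 × ℂ} (hq : q ∈ e.target) (hqt : q.2 = t)
    (hg : e.symm q ∈ GoodZ Ω G f) :
    jac e q ≠ 0 ∧ cf P e q * (M * pd 2 f (ax (e.symm q))) = b * ay (e.symm q) ^ l * jac e q := by
  have ha := hg.1
  have hL := isL_nl he hq ha
  have hcone := hL.mem_cone hG
  have hLv : nl e 0 q = (t, vec (ax (e.symm q)) (ay (e.symm q))) := by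
    have h1 := sg_eq_vec ha
    have h2 := he.par _ (e.map_target hq)
    rw [e.right_inv hq, hqt] at h2
    rw [← h2] at h1
    exact h1
  have ht : t ∈ Ω := by
    have := hcone.1
    rw [hLv] at this
    exact this
  have hcd := cdet_aff hG ht hC (ax (e.symm q)) (ay (e.symm q))
  rw [← hLv] at hcd
  have hM0 : (M : ℂ) ≠ 0 := by exact_mod_cast hM.ne'
  have hcd0 : cdet c3 (gv G (nl e 0 q)) ≠ 0 := by
    rw [hcd]
    exact mul_ne_zero hg.2.2 (mul_ne_zero hM0 (pow_ne_zero _ hg.2.1))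
  have hpd := pdet_nl he hq ha
  have hres := res_mul_cdet (gv_surj hG hcone) c3 (gv_self hG hcone) (hL.gv_dl hG he hq 0)
    (hL.gv_dl hG he hq 1)
  rw [hpd] at hres
  refine ⟨?_, ?_⟩
  · rw [← hres]
    exact mul_ne_zero (res_ne_zero (gv_surj hG hcone) (gv_self hG hcone) (hL.gv_dl hG he hq 0)
      (hL.gv_dl hG he hq 1) (hL.indep3 he hq)) hcd0
  · have h1 := cfL_mul_cdet (P := P) hG he hq hL c3
    rw [← cf_eq hG hP hN he hq hL, hpd, hcd] at h1
    have h2 : f (ax (e.symm q)) = s ∧ ay (e.symm q) ^ M = h (ax (e.symm q)) := by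
      have h3 := hcone.2.2
      rw [hLv] at h3
      have h4 := congrFun h3 0
      have h5 := congrFun h3 1
      rw [hC.aff0] at h4
      rw [hC.aff1] at h5
      exact ⟨sub_eq_zero.1 h4, sub_eq_zero.1 h5⟩
    have h3 : P (nl e 0 q) = b * ay (e.symm q) ^ (M - 1 + l) := by
      rw [hLv]
      exact hPb _ _ h2.1 h2.2
    rw [h3, pow_add] at h1
    have h4 : ay (e.symm q) ^ (M - 1) ≠ 0 := pow_ne_zero _ hg.2.1
    apply mul_right_cancel₀ h4
    linear_combination h1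

/-- **S1-GEO-R7.** The square norm of the form `P w_Z` over the fibre of the cyclic cover
`Y^M = h`, `M = m l`, is, up to the factor `4 |b|² / M`, the integral of `|h|^{2/m} |ω|²` over the
affine surface `f = s`. -/
theorem intF_cyc (hG : CIF Ω G dg) (ht : t ∈ Ω) (hC : IsCov G t f h s M)
    (hm : 0 < m) (hl : 0 < l) (hM : M = m * l) {d : ℕ} {c : ℂ} (hd : 0 < d) (hc : c ≠ 0)
    (hp : PT f d c) (hP : HPol Ω P N) (hN : N + (2 + 3) = ∑ k, dg k)
    (hPb : ∀ x y, f x = s → y ^ M = h x → P (t, vec x y) = b * y ^ (M - 1 + l)) :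
    (b ≠ 0 → Nk f s m h < ⊤) ∧
    intF (fam hG rfl) t (fun e q => prh (fm (cf P) e q) (fm (cf P) e q)) =
      ((4 * ‖b‖ ^ 2 / M * (Nk f s m h).toReal : ℝ) : ℂ) := by
  have hM0 : 0 < M := by rw [hM]; positivity
  have hMr : (0 : ℝ) < M := by exact_mod_cast hM0
  set F : Fam (TZ Ω G) := fam hG rfl with hF
  set D : PC (TZ Ω G) → Cm 2 × ℂ → ℂ := fun e q => prh (fm (cf P) e q) (fm (cf P) e q) with hD
  have hRF := (isHolCf_cf hG hP hN).isRF2
  have hden : IsDen F D := isDen_prh hRF hRF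
  have hDv : ∀ e ∈ F.A, ∀ q ∈ e.target, D e q = ((4 * ‖cf P e q‖ ^ 2 : ℝ) : ℂ) := by
    intro e he q hq
    have h1 := prh_ty20 (ty20_fm (cf P) e q) (ty20_fm (cf P) e q) (hRF.alt e he q hq)
      (hRF.alt e he q hq)
    have h2 : fm (cf P) e q (Pi.single 0 1) (Pi.single 1 1) = cf P e q := by
      rw [fm_apply]
      simp
    rw [h2, Complex.mul_conj, Complex.normSq_eq_norm_sq] at h1
    show prh _ _ = _
    rw [h1]
    push_cast
    ring
  have hcomp := F.compact_fib ht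
  have hat : ∀ {f' : Chart 2 (F.Fib t)} {z : F.Fib t}, At f' z → ∃ e, ∃ he : IsFC F t f' e,
      H39.res F t D f' (f' z) = ((4 * ‖cf P e (f' z, t)‖ ^ 2 : ℝ) : ℂ) := by
    intro f' z hz
    obtain ⟨e, he⟩ := mem_atlas_fib.1 hz.1
    refine ⟨e, he, ?_⟩
    have h1 := he.apply hz.2
    rw [hden.res_apply he hz.2, h1]
    exact hDv e he.mem _ (he.mem_target (f'.map_source hz.2))
  set κ : ℝ := 4 * ‖b‖ ^ 2 / M ^ 2 with hκ
  have hκ0 : 0 ≤ κ := by positivity
  have key := intX_cyc (X := F.Fib t) (f := f) (h := h) (s := s) hm hl hM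
    (x := fun z => ax z.val) (Y := fun z => ay z.val) (Good := {z | z.val ∈ GoodZ Ω G f})
    ((isOpen_GoodZ hC.cf).preimage continuous_fib) (inj_good hG)
    (fun p y => image_good hG ht hC p y)
    (D := fun f' w => (H39.res F t D f' w).re) (hden.isDensity_re t)
    (by
      intro f' z hz
      obtain ⟨e, he, h1⟩ := hat hz
      show 0 ≤ (H39.res F t D f' (f' z)).re
      rw [h1, Complex.ofReal_re]
      positivity)
    (fun f' hf' => null_bad hG ht hC hM0 hd hc hp hf')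
    (by
      intro f' z hz hg
      obtain ⟨e, he, -⟩ := hat hz
      exact (det_ax he hz.2 hg.1).1)
    hκ0
    (by
      intro f' z hz hg
      obtain ⟨e, he, h1⟩ := hat hz
      have hq : (f' z, t) ∈ e.target := he.mem_target (f'.map_source hz.2)
      have hzv : e.symm (f' z, t) = z.val := by
        rw [← he.symm_val (f'.map_source hz.2), f'.left_inv hz.2]
      have hg' : e.symm (f' z, t) ∈ GoodZ Ω G f := by rw [hzv]; exact hg
      obtain ⟨hj, hcf⟩ := cf_good hG hC hM0 hP hN hPb he.mem hq rfl hg'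
      rw [hzv] at hcf
      rw [(det_ax he hz.2 hg.1).2]
      have hj' : 0 < ‖jac e (f' z, t)‖ := norm_pos_iff.2 hj
      refine ⟨by positivity, ?_⟩
      show (H39.res F t D f' (f' z)).re = _
      rw [h1, Complex.ofReal_re, abs_of_nonneg (by positivity)]
      have hpd : 0 < ‖pd 2 f (ax z.val)‖ := norm_pos_iff.2 hg.2.2
      have h2 := congrArg norm hcf
      rw [norm_mul, norm_mul, norm_mul, norm_mul, norm_pow, Complex.norm_natCast] at h2
      have h3 : ‖cf P e (f' z, t)‖ =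
          ‖b‖ * ‖ay z.val‖ ^ l * ‖jac e (f' z, t)‖ / (M * ‖pd 2 f (ax z.val)‖) := by
        rw [eq_div_iff (by positivity), h2]
      rw [h3, hκ]
      have h4 : ‖ay z.val‖ ^ (2 * l) = (‖ay z.val‖ ^ l) ^ 2 := by rw [← pow_mul, mul_comm]
      rw [h4]
      field_simp)
  -- finiteness
  have hfin : b ≠ 0 → Nk f s m h < ⊤ := by
    intro hb
    by_contra hcon
    have h1 : Nk f s m h = ⊤ := by simpa using hcon
    rw [h1, ENNReal.mul_top] at key
    · exact ENNReal.ofReal_ne_top key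
    · have hb' : 0 < ‖b‖ := norm_pos_iff.2 hb
      refine mul_ne_zero ?_ (by exact_mod_cast hM0.ne')
      have : 0 < κ := by positivity
      simpa using this
  refine ⟨hfin, ?_⟩
  have h0 : 0 ≤ intX (n := 2) (X := F.Fib t) fun f' w => (H39.res F t D f' w).re := by
    refine intX_nonneg fun f' z hz => ?_
    obtain ⟨e, he, h1⟩ := hat hz
    show 0 ≤ (H39.res F t D f' (f' z)).re
    rw [h1, Complex.ofReal_re]
    positivity
  have h1 := congrArg ENNReal.toReal key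
  rw [ENNReal.toReal_ofReal h0, ENNReal.toReal_mul, ENNReal.toReal_mul,
    ENNReal.toReal_ofReal hκ0, ENNReal.toReal_natCast] at h1
  have h2 : (intX (n := 2) (X := F.Fib t) fun f' w => (H39.res F t D f' w).im) = 0 := by
    have h3 : (intX (n := 2) (X := F.Fib t) fun f' w => (H39.res F t D f' w).im) =
        intX (n := 2) (X := F.Fib t) fun _ _ => (0 : ℝ) := by
      refine intX_congr fun f' z hz => ?_
      obtain ⟨e, he, h1⟩ := hat hz
      rw [h1, Complex.ofReal_im]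
    rw [h3, intX_zero]
  rw [intF_def ht, h1, h2, hκ]
  push_cast
  field_simp
  ring

end Vale.Agent.P298.H98.R7
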